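import Vale.Agent.P095.Equiv.OmegaDefs
import Vale.Agent.P101.KR.Ultra

/-!
# P095: commuting copies in `F_ω(A)` compatible with the induced action
-/

namespace Vale.Agent.P095.Equiv

open Filter Topology BoundedContinuousFunction TopologicalSpace Vale.Agent.P101.KR

noncomputable section

variable {A : Type} [CStarAlgebra A] {ω : Ultrafilter ℕ}

/-- A map that is isometric and central on lifts of `s` gives a map on `Cl s`. -/
theorem exists_copy_of {s : Set (CentralAlgebra ω A)} (T : StarSubalgebra ℂ (ℕ →ᵇ A))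
    (hsT : ∀ z ∈ s, ∃ t ∈ T, cls ω t = z.1) (ψ : (ℕ →ᵇ A) →⋆ₐ[ℂ] AOmega A ω)
    (hnorm : ∀ t ∈ T, ‖ψ t‖ = ‖cls ω t‖) (hcen : ∀ t ∈ T, ψ t ∈ central A ω) :
    ∃ ι : Cl s →⋆ₐ[ℂ] CentralAlgebra ω A, ∀ (x : Cl s) (u : ℕ → ℕ →ᵇ A), (∀ k, u k ∈ T) →
      Tendsto (fun k => cls ω (u k)) atTop (𝓝 ((x : CentralAlgebra ω A) : AOmega A ω)) →
      Tendsto (fun k => ψ (u k)) atTop (𝓝 (ι x : AOmega A ω)) := by
  -- approximation of elements of `Cl s`
  have happrox : ∀ x : Cl s, ∃ t : ℕ → ℕ →ᵇ A, (∀ k, t k ∈ T) ∧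
      Tendsto (fun k => cls ω (t k)) atTop (𝓝 ((x : CentralAlgebra ω A) : AOmega A ω)) := by
    intro x
    have hmem : ((x : CentralAlgebra ω A) : AOmega A ω) ∈ (T.map (cls ω)).topologicalClosure := by
      have hle : Cl s ≤ ((T.map (cls ω)).topologicalClosure).comap (central A ω).subtype := by
        refine StarSubalgebra.topologicalClosure_minimal (StarAlgebra.adjoin_le ?_) ?_
        · intro z hz
          refine StarSubalgebra.le_topologicalClosure _ ?_
          obtain ⟨t, ht, htz⟩ := hsT z hz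
          exact ⟨t, ht, htz⟩
        · exact (StarSubalgebra.isClosed_topologicalClosure _).preimage continuous_subtype_val
      exact hle x.2
    rw [← SetLike.mem_coe, StarSubalgebra.topologicalClosure_coe, mem_closure_iff_seq_limit] at hmem
    obtain ⟨u, hu, hlim⟩ := hmem
    choose t ht htu using hu
    exact ⟨t, ht, by
      rw [show (fun k => cls ω (t k)) = u from funext htu]
      exact hlim⟩
  choose t htT htlim using happrox
  have hcauchy : ∀ x : Cl s, ∃ z : AOmega A ω, Tendsto (fun k => ψ (t x k)) atTop (𝓝 z) := fun x => by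
    refine cauchySeq_tendsto_of_complete (Metric.cauchySeq_iff.2 fun ε hε => ?_)
    obtain ⟨N, hN⟩ := Metric.cauchySeq_iff.1 (htlim x).cauchySeq ε hε
    refine ⟨N, fun m hm n hn => ?_⟩
    rw [dist_eq_norm, ← map_sub, hnorm _ (sub_mem (htT x m) (htT x n)), map_sub, ← dist_eq_norm]
    exact hN m hm n hn
  choose z hz using hcauchy
  have uniq : ∀ (x : Cl s) (u : ℕ → ℕ →ᵇ A), (∀ k, u k ∈ T) →
      Tendsto (fun k => cls ω (u k)) atTop (𝓝 ((x : CentralAlgebra ω A) : AOmega A ω)) →
      Tendsto (fun k => ψ (u k)) atTop (𝓝 (z x)) := fun x u hu hlim => by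
    have h0 : Tendsto (fun k => ψ (u k) - ψ (t x k)) atTop (𝓝 0) := by
      refine tendsto_zero_iff_norm_tendsto_zero.2 ?_
      have := tendsto_zero_iff_norm_tendsto_zero.1 (by simpa using hlim.sub (htlim x))
      refine this.congr fun k => ?_
      rw [← map_sub, ← map_sub, hnorm _ (sub_mem (hu k) (htT x k))]
    simpa using h0.add (hz x)
  have hzmem : ∀ x, z x ∈ central A ω := fun x =>
    isClosed_central.mem_of_tendsto (hz x) (Eventually.of_forall fun k => hcen _ (htT x k))
  have zeq : ∀ (x : Cl s) (u : ℕ → ℕ →ᵇ A) {l : AOmega A ω}, (∀ k, u k ∈ T) →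
      Tendsto (fun k => cls ω (u k)) atTop (𝓝 ((x : CentralAlgebra ω A) : AOmega A ω)) →
      Tendsto (fun k => ψ (u k)) atTop (𝓝 l) → z x = l := fun x u l hu h1 h2 =>
    tendsto_nhds_unique (uniq x u hu h1) h2
  have hone : z 1 = 1 := by
    refine zeq 1 (fun _ => 1) (fun _ => one_mem T) ?_ ?_ <;> simp
  have hzero : z 0 = 0 := by
    refine zeq 0 (fun _ => 0) (fun _ => zero_mem T) ?_ ?_ <;> simp
  have halg : ∀ r : ℂ, z (algebraMap ℂ (Cl s) r) = algebraMap ℂ (AOmega A ω) r := fun r => by
    refine zeq _ (fun _ => algebraMap ℂ _ r) (fun _ => StarSubalgebra.algebraMap_mem T r) ?_ ?_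
    · simp only [AlgHomClass.commutes]; exact tendsto_const_nhds
    · simp only [AlgHomClass.commutes]; exact tendsto_const_nhds
  refine ⟨
    { toFun := fun x => ⟨z x, hzmem x⟩
      map_one' := Subtype.ext hone
      map_zero' := Subtype.ext hzero
      map_mul' := fun x y => Subtype.ext ?_
      map_add' := fun x y => Subtype.ext ?_
      commutes' := fun r => Subtype.ext (halg r)
      map_star' := fun x => Subtype.ext ?_ }, uniq⟩
  · refine zeq _ (fun k => t x k * t y k) (fun k => mul_mem (htT x k) (htT y k)) ?_ ?_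
    · simp only [map_mul]; exact (htlim x).mul (htlim y)
    · simp only [map_mul]; exact (hz x).mul (hz y)
  · refine zeq _ (fun k => t x k + t y k) (fun k => add_mem (htT x k) (htT y k)) ?_ ?_
    · simp only [map_add]; exact (htlim x).add (htlim y)
    · simp only [map_add]; exact (hz x).add (hz y)
  · have hst : Continuous (star : AOmega A ω → AOmega A ω) := continuous_star
    refine zeq _ (fun k => star (t x k)) (fun k => star_mem (htT x k)) ?_ ?_
    · simp only [map_star]; exact (hst.tendsto _).comp (htlim x)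
    · simp only [map_star]; exact (hst.tendsto _).comp (hz x)

/-- Many reindexings with mutually commuting images. -/
theorem exists_reindexes [SeparableSpace A] (hω : (ω : Filter ℕ) ≤ cofinite)
    (d : ℕ → ℕ →ᵇ A) (hd : ∀ i, cls ω (d i) ∈ central A ω) :
    ∃ φ : ℕ → ℕ → ℕ, ∀ k i, ‖cls ω (reindex (φ k) (d i))‖ = ‖cls ω (d i)‖ ∧
      cls ω (reindex (φ k) (d i)) ∈ central A ω ∧
      ∀ k', k ≠ k' → ∀ j, Commute (cls ω (reindex (φ k) (d i))) (cls ω (reindex (φ k') (d j))) := by
  set a : ℕ → A := denseSeq A with ha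
  have key : ∀ (n : ℕ) (prev : List ℕ), ∃ m : ℕ, ∀ i ≤ n,
      |‖d i m‖ - ‖cls ω (d i)‖| < 1 / (n + 1 : ℝ) ∧
      (∀ l ≤ n, ‖a l * d i m - d i m * a l‖ < 1 / (n + 1 : ℝ)) ∧
      ∀ j ≤ n, ∀ p ∈ prev, ‖d i m * d j p - d j p * d i m‖ < 1 / (n + 1 : ℝ) := by
    intro n prev
    have hpos : (0 : ℝ) < 1 / (n + 1 : ℝ) := by positivity
    refine (((Set.finite_Iic n).eventually_all (l := (ω : Filter ℕ))).2 fun i _ => ?_).exists
    have hc := fun b : A => (cls_mem_central.1 (hd i) b).eventually (gt_mem_nhds hpos)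
    refine Eventually.and ?_ (Eventually.and ?_ ?_)
    · have h1 := (tendsto_omegaNorm ω (d i)).sub_const ‖cls ω (d i)‖
      rw [norm_cls, sub_self] at h1
      exact (h1.abs.eventually (gt_mem_nhds (by simpa using hpos))).mono fun m hm => hm
    · exact (Set.finite_Iic n).eventually_all.2 fun l _ => hc (a l)
    · refine (Set.finite_Iic n).eventually_all.2 fun j _ =>
        prev.finite_toSet.eventually_all.2 fun p _ => ?_
      exact (hc (d j p)).mono fun m hm => by rwa [norm_sub_rev]
  choose pick hpick using key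
  let L : ℕ → ℕ → List ℕ := fun n k => k.rec [] fun _ l => l ++ [pick n l]
  have hmem : ∀ n k k', k' < k → pick n (L n k') ∈ L n k := by
    intro n k k' h
    induction k with
    | zero => omega
    | succ k ih =>
      show pick n (L n k') ∈ L n k ++ [pick n (L n k)]
      rcases Nat.lt_succ_iff_lt_or_eq.1 h with h | h
      · exact List.mem_append_left _ (ih h)
      · exact List.mem_append_right _ (by simp [h])
  have hsmall : Tendsto (fun n : ℕ => 1 / (n + 1 : ℝ)) (ω : Filter ℕ) (𝓝 0) :=
    tendsto_one_div_add_atTop_nhds_zero_nat.mono_left (hω.trans Nat.cofinite_eq_atTop.le)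
  have hcom : ∀ k k', k' < k → ∀ i j,
      Commute (cls ω (reindex (fun n => pick n (L n k)) (d i)))
        (cls ω (reindex (fun n => pick n (L n k')) (d j))) := by
    intro k k' hkk i j
    show cls ω _ * cls ω _ = cls ω _ * cls ω _
    rw [← map_mul, ← map_mul, cls_eq_iff]
    refine squeeze_zero' (Eventually.of_forall fun _ => norm_nonneg _) ?_ hsmall
    filter_upwards [eventually_fine hω i, eventually_fine hω j] with n hn hjn
    exact ((hpick n (L n k) i hn).2.2 j hjn _ (hmem n k k' hkk)).le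
  refine ⟨fun k n => pick n (L n k), fun k i => ⟨?_, ?_, fun k' hk j => ?_⟩⟩
  · rw [norm_cls, norm_cls]
    refine omegaNorm_eq (tendsto_iff_norm_sub_tendsto_zero.2 ?_)
    refine squeeze_zero' (Eventually.of_forall fun _ => norm_nonneg _) ?_ hsmall
    filter_upwards [eventually_fine hω i] with n hn
    simpa [reindex_apply, norm_cls, Real.norm_eq_abs] using ((hpick n (L n k) i hn).1).le
  · refine cls_mem_central.2 fun b => ?_
    have hcl : IsClosed {b : A | Tendsto (fun n => ‖b * (reindex (fun n => pick n (L n k)) (d i)) n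
        - (reindex (fun n => pick n (L n k)) (d i)) n * b‖) (ω : Filter ℕ) (𝓝 0)} := by
      have e : {b : A | Tendsto (fun n => ‖b * (reindex (fun n => pick n (L n k)) (d i)) n
          - (reindex (fun n => pick n (L n k)) (d i)) n * b‖) (ω : Filter ℕ) (𝓝 0)}
          = {b : A | emb ω b * cls ω (reindex (fun n => pick n (L n k)) (d i))
            = cls ω (reindex (fun n => pick n (L n k)) (d i)) * emb ω b} := by
        ext b
        show _ ↔ cls ω _ * cls ω _ = cls ω _ * cls ω _
        rw [← map_mul, ← map_mul, cls_eq_iff]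
        rfl
      rw [e]
      have := AddMonoidHomClass.continuous_of_bound (emb (A := A) ω) 1 fun y => by
        simpa using NonUnitalStarAlgHom.norm_apply_le (emb (A := A) ω) y
      exact isClosed_eq (this.fun_mul continuous_const) (continuous_const.fun_mul this)
    refine hcl.closure_subset_iff.2 ?_ (denseRange_denseSeq A b)
    rintro _ ⟨l, rfl⟩
    refine squeeze_zero' (Eventually.of_forall fun _ => norm_nonneg _) ?_ hsmall
    filter_upwards [eventually_fine hω i, eventually_fine hω l] with n hn hln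
    exact ((hpick n (L n k) i hn).2.1 l hln).le
  · rcases lt_or_gt_of_ne hk with h | h
    · exact (hcom k' k h j i).symm
    · exact hcom k k' h i j

variable {G : Type} [Group G]

theorem isAct_centralAct (α : G → A ≃⋆ₐ[ℂ] A) (hα : ∀ g h a, α (g * h) a = α g (α h a)) :
    IsAct (centralAct ω α) := by
  have hone : ∀ a, α 1 a = a := fun a => by
    have h := hα 1 1 a
    rw [one_mul] at h
    exact EquivLike.injective (α 1) h.symm
  refine ⟨fun z => Subtype.ext ?_, fun g h z => Subtype.ext ?_⟩
  · obtain ⟨x, hx⟩ := cls_surjective (z.1 : AOmega A ω)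
    rw [centralAct_coe, ← hx, omegaMap_cls]
    congr 1
    ext k
    exact hone _
  · obtain ⟨x, hx⟩ := cls_surjective (z.1 : AOmega A ω)
    rw [centralAct_coe, centralAct_coe, centralAct_coe, ← hx, omegaMap_cls, omegaMap_cls,
      omegaMap_cls]
    congr 1
    ext k
    exact hα g h _

/-- The central sequence algebra has equivariant commuting copies. -/
theorem hasEquivCopies [Countable G] [SeparableSpace A] (hω : (ω : Filter ℕ) ≤ cofinite)
    (α : G → A ≃⋆ₐ[ℂ] A) (hα : ∀ g h a, α (g * h) a = α g (α h a)) :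
    HasEquivCopies (centralAct ω α) := by
  classical
  intro s hs hmaps
  let lift : CentralAlgebra ω A → ℕ →ᵇ A := fun z => Function.surjInv (cls_surjective (ω := ω)) z.1
  have hlift : ∀ z, cls ω (lift z) = z.1 := fun z => Function.surjInv_eq cls_surjective z.1
  set L : Set (ℕ →ᵇ A) := lift '' s ∪ ⋃ g, seqMap (α g).toStarAlgHom '' (lift '' s) with hLdef
  have hLc : L.Countable :=
    (hs.image lift).union (Set.countable_iUnion fun g => (hs.image lift).image _)
  set T := StarAlgebra.adjoin ℂ L with hT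
  have hθT : ∀ t ∈ T, cls ω t ∈ central A ω := by
    have hle : T ≤ (central A ω).comap (cls ω) := StarAlgebra.adjoin_le (by
      rintro t (⟨z, -, rfl⟩ | ht)
      · show cls ω (lift z) ∈ central A ω
        rw [hlift]
        exact z.2
      · obtain ⟨g, u, ⟨z, -, rfl⟩, rfl⟩ := Set.mem_iUnion.1 ht
        show cls ω _ ∈ central A ω
        rw [← omegaMap_cls, hlift]
        exact omegaMap_central ω (α g) z)
    exact fun t ht => hle ht
  have hinv : ∀ g, ∀ t ∈ T, seqMap (α g).toStarAlgHom t ∈ T := by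
    intro g
    have hle : T ≤ T.comap (seqMap (α g).toStarAlgHom) := StarAlgebra.adjoin_le (by
      rintro t (ht | ht)
      · exact StarAlgebra.subset_adjoin ℂ L (Or.inr (Set.mem_iUnion.2 ⟨g, t, ht, rfl⟩))
      · obtain ⟨h, u, hu, rfl⟩ := Set.mem_iUnion.1 ht
        refine StarAlgebra.subset_adjoin ℂ L (Or.inr (Set.mem_iUnion.2 ⟨g * h, u, hu, ?_⟩))
        ext k
        exact hα g h _)
    exact fun t ht => hle ht
  obtain ⟨c, hcT, hc, hTc⟩ := (isSeparable_adjoin hLc).exists_countable_dense_subset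
  have h1c : ∃ e, e ∈ c := by
    rcases c.eq_empty_or_nonempty with h | h
    · have := hTc (one_mem T)
      simp [h] at this
    · exact h
  obtain ⟨d, hd⟩ := hc.exists_eq_range h1c
  have hdT : ∀ i, d i ∈ T := fun i => hcT (hd ▸ Set.mem_range_self i)
  obtain ⟨φ, hφ⟩ := exists_reindexes hω d fun i => hθT _ (hdT i)
  let ψ : ℕ → (ℕ →ᵇ A) →⋆ₐ[ℂ] AOmega A ω := fun k => (cls ω).comp (reindex (φ k))
  have hψc : ∀ k, Continuous (ψ k) := fun k => continuous_cls.comp (continuous_reindex (φ k))
  have dense : ∀ P : Set (ℕ →ᵇ A), IsClosed P → (∀ i, d i ∈ P) → ∀ t ∈ T, t ∈ P :=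
    fun P hP hi t ht => closure_minimal (by rw [hd]; rintro _ ⟨i, rfl⟩; exact hi i) hP (hTc ht)
  have hnorm : ∀ k, ∀ t ∈ T, ‖ψ k t‖ = ‖cls ω t‖ := fun k =>
    dense {t | ‖ψ k t‖ = ‖cls ω t‖} (isClosed_eq (hψc k).norm continuous_cls.norm)
      fun i => (hφ k i).1
  have hcen : ∀ k, ∀ t ∈ T, ψ k t ∈ central A ω := fun k =>
    dense (ψ k ⁻¹' central A ω) (isClosed_central.preimage (hψc k)) fun i => (hφ k i).2.1
  have hcomm : ∀ k k', k ≠ k' → ∀ t ∈ T, ∀ u ∈ T, Commute (ψ k t) (ψ k' u) := by
    intro k k' hk t ht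
    refine dense {u | Commute (ψ k t) (ψ k' u)}
      (isClosed_eq (continuous_const.fun_mul (hψc k')) ((hψc k').fun_mul continuous_const)) ?_
    exact fun j => dense {t | Commute (ψ k t) (ψ k' (d j))}
      (isClosed_eq ((hψc k).fun_mul continuous_const) (continuous_const.fun_mul (hψc k)))
      (fun i => (hφ k i).2.2 k' hk j) t ht
  have hsT : ∀ z ∈ s, ∃ t ∈ T, cls ω t = z.1 := fun z hz =>
    ⟨lift z, StarAlgebra.subset_adjoin ℂ L (Or.inl ⟨z, hz, rfl⟩), hlift z⟩
  choose ι hι using fun k => exists_copy_of T hsT (ψ k) (hnorm k) (hcen k)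
  have happ : ∀ x : Cl s, ∃ t : ℕ → ℕ →ᵇ A, (∀ k, t k ∈ T) ∧
      Tendsto (fun k => cls ω (t k)) atTop (𝓝 ((x : CentralAlgebra ω A) : AOmega A ω)) := by
    intro x
    have hle : Cl s ≤ ((T.map (cls ω)).topologicalClosure).comap (central A ω).subtype := by
      refine StarSubalgebra.topologicalClosure_minimal (StarAlgebra.adjoin_le ?_) ?_
      · intro z hz
        exact StarSubalgebra.le_topologicalClosure _ (hsT z hz)
      · exact (StarSubalgebra.isClosed_topologicalClosure _).preimage continuous_subtype_val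
    have hmem : ((x : CentralAlgebra ω A) : AOmega A ω) ∈ (T.map (cls ω)).topologicalClosure :=
      hle x.2
    rw [← SetLike.mem_coe, StarSubalgebra.topologicalClosure_coe, mem_closure_iff_seq_limit] at hmem
    obtain ⟨u, hu, hlim⟩ := hmem
    choose t ht htu using hu
    exact ⟨t, ht, by rwa [show (fun k => cls ω (t k)) = u from funext htu]⟩
  refine ⟨ι, fun i j hij x y => Subtype.ext ?_, fun i g x y hxy => Subtype.ext ?_⟩
  · obtain ⟨t, ht, htx⟩ := happ x
    obtain ⟨u, hu, huy⟩ := happ y
    exact tendsto_nhds_unique ((hι i x t ht htx).mul (hι j y u hu huy))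
      (((hι j y u hu huy).mul (hι i x t ht htx)).congr fun k =>
        (hcomm i j hij _ (ht k) _ (hu k)).symm)
  · obtain ⟨t, ht, htx⟩ := happ x
    set f := omegaMap ω (α g).toStarAlgHom
    have hf : Continuous f := AddMonoidHomClass.continuous_of_bound f 1 fun w => by
      simpa using NonUnitalStarAlgHom.norm_apply_le f w
    rw [centralAct_coe]
    refine tendsto_nhds_unique ((hf.tendsto _).comp (hι i x t ht htx)) ?_
    have hy : Tendsto (fun k => cls ω (seqMap (α g).toStarAlgHom (t k))) atTop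
        (𝓝 ((y : CentralAlgebra ω A) : AOmega A ω)) := by
      rw [← congrArg Subtype.val hxy]
      exact ((hf.tendsto _).comp htx).congr fun k => omegaMap_cls ω _ _
    refine (hι i y _ (fun k => hinv g _ (ht k)) hy).congr fun k => ?_
    show cls ω _ = f (cls ω _)
    rw [omegaMap_cls]
    rfl

end

end Vale.Agent.P095.Equiv
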