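import Vale.Agent.P095.Equiv.FixedMap

/-!
# P095: actions whose image modulo inner automorphisms is locally finite
-/

namespace Vale.Agent.P095.Equiv

open Filter Topology TopologicalSpace BoundedContinuousFunction Vale.Agent.P101.KR
  Vale.Agent.P101.Bridge

noncomputable section

/-- Automorphisms differing by an inner one agree on the central algebra. -/
theorem centralAct_eq_of_inner {G A : Type} [CStarAlgebra A] (ω : Ultrafilter ℕ)
    (α : G → A ≃⋆ₐ[ℂ] A) {g s : G} {u : A} (huu : u * star u = 1)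
    (he : ∀ a, α g a = u * α s a * star u) : centralAct ω α g = centralAct ω α s := by
  refine StarAlgHom.ext fun z => Subtype.ext ?_
  have hc : (centralAct ω α s z : AOmega A ω) * emb ω (star u)
      = emb ω (star u) * (centralAct ω α s z : AOmega A ω) :=
    (mem_central.1 (centralAct ω α s z).2 (star u)).symm
  rw [centralAct_coe] at hc ⊢
  rw [centralAct_coe]
  obtain ⟨x, hx⟩ := cls_surjective (z : AOmega A ω)
  have e : omegaMap ω (α g).toStarAlgHom (z : AOmega A ω) =
      emb ω u * omegaMap ω (α s).toStarAlgHom (z : AOmega A ω) * emb ω (star u) := by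
    rw [← hx, omegaMap_cls, omegaMap_cls]
    show cls ω (seqMap (α g).toStarAlgHom x) = cls ω (BoundedContinuousFunction.const ℕ u) *
      cls ω (seqMap (α s).toStarAlgHom x) * cls ω (BoundedContinuousFunction.const ℕ (star u))
    rw [← map_mul, ← map_mul]
    exact congrArg (cls ω) (BoundedContinuousFunction.ext fun k => he (x k))
  rw [e, mul_assoc, hc, ← mul_assoc, ← map_mul, huu, map_one, one_mul]

variable {G : Type} [Group G] {F : Type} [CStarAlgebra F]

/-- Local maps into the algebra fixed by a subgroup with finite image. -/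
theorem localMap_of_finite [Countable G] {β : G → F →⋆ₐ[ℂ] F} (hact : IsAct β)
    (hcop : HasEquivCopies β) (hF : NoCharacter F) {D : Type} [CStarAlgebra D] (hD : IsJiangSu D)
    (H : Subgroup G) (hfin : (Set.range fun h : H => β h).Finite) (P : Finset D) {ε : ℝ}
    (hε : 0 < ε) :
    ∃ S : StarSubalgebra ℂ D, IsClosed (S : Set D) ∧
      (∃ ρ : S →⋆ₐ[ℂ] F, ∀ g ∈ H, ∀ y, β g (ρ y) = ρ y) ∧ ∀ x ∈ P, ∃ y ∈ S, ‖x - y‖ ≤ ε := by
  classical
  let φ : H →* Function.End F :=
    { toFun := fun h => ⇑(β h), map_one' := funext fun x => hact.one x,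
      map_mul' := fun g h => funext fun x => hact.mul g h x }
  have hinj : Function.Injective (QuotientGroup.lift φ.ker φ le_rfl) := fun a b hab => by
    induction a using QuotientGroup.induction_on with
    | H a =>
      induction b using QuotientGroup.induction_on with
      | H b =>
        rw [QuotientGroup.lift_mk, QuotientGroup.lift_mk] at hab
        refine QuotientGroup.eq.2 (MonoidHom.mem_ker.2 ?_)
        rw [map_mul, ← hab, ← map_mul, inv_mul_cancel, map_one]
  have hQ : Finite (H ⧸ φ.ker) := by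
    refine Set.finite_univ_iff.1 (Set.Finite.of_finite_image ?_ hinj.injOn)
    rw [Set.image_univ]
    refine (hfin.image fun f : F →⋆ₐ[ℂ] F => (⇑f : Function.End F)).subset ?_
    rintro _ ⟨q, rfl⟩
    induction q using QuotientGroup.induction_on with
    | H a => exact ⟨β a, ⟨a, rfl⟩, rfl⟩
  have hout : ∀ a : H, ∀ x, β (Quotient.out (a : H ⧸ φ.ker) : H) x = β a x := fun a x => by
    have h : QuotientGroup.lift φ.ker φ le_rfl ((Quotient.out (a : H ⧸ φ.ker) : H) : H ⧸ φ.ker)
        = QuotientGroup.lift φ.ker φ le_rfl (a : H ⧸ φ.ker) :=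
      congrArg _ (QuotientGroup.out_eq' _)
    rw [QuotientGroup.lift_mk, QuotientGroup.lift_mk] at h
    exact congrFun h x
  let γ : H ⧸ φ.ker → F →⋆ₐ[ℂ] F := fun q => β (Quotient.out q : H)
  have hγ : IsAct γ := by
    refine ⟨fun x => (hout 1 x).trans (hact.one x), fun p q x => ?_⟩
    induction p using QuotientGroup.induction_on with
    | H a =>
      induction q using QuotientGroup.induction_on with
      | H b =>
        show β (Quotient.out ((a * b : H) : H ⧸ φ.ker) : H) x
          = β (Quotient.out (a : H ⧸ φ.ker) : H) (β (Quotient.out (b : H ⧸ φ.ker) : H) x)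
        rw [hout, hout, hout]
        exact hact.mul _ _ x
  have hcopγ : HasEquivCopies γ := by
    intro s hs _
    set s' : Set F := ⋃ g, β g '' s
    have hs' : s'.Countable := Set.countable_iUnion fun g => hs.image _
    have hmaps : ∀ g, Set.MapsTo (β g) s' s' := fun g y hy => by
      obtain ⟨k, z, hz, rfl⟩ := Set.mem_iUnion.1 hy
      exact Set.mem_iUnion.2 ⟨g * k, z, hz, hact.mul g k z⟩
    obtain ⟨κ, hκ, hκe⟩ := hcop s' hs' hmaps
    have hle : Cl s ≤ Cl s' := StarSubalgebra.topologicalClosure_mono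
      (StarAlgebra.adjoin_le fun z hz => StarAlgebra.subset_adjoin ℂ s'
        (Set.mem_iUnion.2 ⟨1, z, hz, hact.one z⟩))
    exact ⟨fun i => (κ i).comp (StarSubalgebra.inclusion hle), fun i j hij a b => hκ i j hij _ _,
      fun i q x y hxy => by
        have h : β ((Quotient.out q : H) : G) (κ i (StarSubalgebra.inclusion hle x))
            = κ i (StarSubalgebra.inclusion hle y) := by
          refine hκe i _ (StarSubalgebra.inclusion hle x) (StarSubalgebra.inclusion hle y) ?_
          rw [coe_inclusion hle x, coe_inclusion hle y]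
          exact hxy
        exact h⟩
  have : Fintype (H ⧸ φ.ker) := Fintype.ofFinite _
  have : Fintype (⊤ : Subgroup (H ⧸ φ.ker)) := Fintype.ofFinite _
  obtain ⟨S, hS, ⟨ρ, hρ⟩, hP⟩ := localMap_of hγ hcopγ hF hD ⊤ P hε
  exact ⟨S, hS, ⟨ρ, fun g hg y => (hout ⟨g, hg⟩ (ρ y)).symm.trans
    (hρ (((⟨g, hg⟩ : H)) : H ⧸ φ.ker) (Subgroup.mem_top _) y)⟩, hP⟩

/-- A fixed central map when every finite set lies in a subgroup with finitely many classes
modulo inner automorphisms. -/
theorem fixedMap_outer (G : Type) [Group G] [Countable G] (A : Type) [CStarAlgebra A]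
    [SeparableSpace A] (ω : Ultrafilter ℕ) (hω : (ω : Filter ℕ) ≤ cofinite)
    (hchar : NoCharacter (CentralAlgebra ω A)) (α : G → A ≃⋆ₐ[ℂ] A)
    (hα : ∀ g h a, α (g * h) a = α g (α h a))
    (hout : ∀ T : Finset G, ∃ (H : Subgroup G) (R : Finset G), ↑T ⊆ (H : Set G) ∧
      ∀ h ∈ H, ∃ r ∈ R, ∃ u : A, star u * u = 1 ∧ u * star u = 1 ∧
        ∀ a, α h a = u * α r a * star u)
    (D : Type) [CStarAlgebra D] (hD : IsJiangSu D) :
    ∃ ψ : D →⋆ₐ[ℂ] CentralAlgebra ω A, ∀ g d, centralAct ω α g (ψ d) = ψ d := by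
  classical
  have := hD.separable
  have hact := isAct_centralAct (ω := ω) α hα
  have hcop := hasEquivCopies hω α hα
  refine localFixed A D ω hω α fun T P ε hε => ?_
  obtain ⟨H, R, hT, hR⟩ := hout T
  have hfin : (Set.range fun h : H => centralAct ω α h).Finite := by
    refine ((R : Set G).toFinite.image (centralAct ω α)).subset ?_
    rintro _ ⟨h, rfl⟩
    obtain ⟨r, hr, u, -, huu, hu⟩ := hR h h.2
    exact ⟨r, hr, (centralAct_eq_of_inner ω α huu hu).symm⟩
  obtain ⟨S, hS, ⟨ρ, hρ⟩, hP⟩ := localMap_of_finite hact hcop hchar hD H hfin P hε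
  exact ⟨S, hS, ⟨ρ, fun g hg y => hρ g (hT hg) y⟩, hP⟩

end

end Vale.Agent.P095.Equiv
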