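import Vale.Agent.P095.Equiv.OmegaDefs
import Vale.Agent.P101.Bridge.Local

/-!
# P095: saturation for fixed central maps
-/

namespace Vale.Agent.P095.Equiv

open Filter Topology BoundedContinuousFunction TopologicalSpace Vale.Agent.P101.KR
  Vale.Agent.P101.Bridge

noncomputable section

/-- A map on a dense sequence respecting the relations extends, keeping its values. -/
theorem exists_extension {D : Type} [CStarAlgebra D] {A : Type} [CStarAlgebra A]
    {ω : Ultrafilter ℕ} {x : ℕ → D} (hx : DenseRange x) {q : ℕ → ℂ} (hq : DenseRange q)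
    {a : ℕ → A} (ha : DenseRange a) (θ : ℕ → AOmega A ω)
    (hθ : ∀ r : Rel, ‖r.eval q θ (fun j => emb ω (a j))‖ ≤ ‖r.eval q x 0‖) :
    ∃ ψ : D →⋆ₐ[ℂ] CentralAlgebra ω A, ∀ i, (ψ (x i) : AOmega A ω) = θ i := by
  have hcen : ∀ i, θ i ∈ central A ω := by
    intro i
    rw [mem_central]
    intro b
    have h0 : ∀ j, emb ω (a j) * θ i = θ i * emb ω (a j) := fun j => by
      have := hθ (.comm i j)
      simpa [Rel.eval, sub_eq_zero] using this
    have hc : Continuous (emb (A := A) ω) :=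
      AddMonoidHomClass.continuous_of_bound (emb (A := A) ω) 1 fun y => by
        simpa using NonUnitalStarAlgHom.norm_apply_le (emb (A := A) ω) y
    exact congrFun (ha.equalizer (hc.fun_mul continuous_const) (continuous_const.fun_mul hc)
      (funext h0)) b
  have hs : ∀ d : D, ∃ s : ℕ → ℕ, Tendsto (fun k => x (s k)) atTop (𝓝 d) := by
    intro d
    obtain ⟨u, hu, hlim⟩ := mem_closure_iff_seq_limit.1 (hx d)
    choose s hs using hu
    exact ⟨s, by simpa [show (fun k => x (s k)) = u from funext hs] using hlim⟩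
  choose s hs using hs
  have hcauchy : ∀ d, ∃ z, Tendsto (fun k => θ (s d k)) atTop (𝓝 z) := by
    intro d
    refine cauchySeq_tendsto_of_complete (Metric.cauchySeq_iff.2 fun ε hε => ?_)
    obtain ⟨N, hN⟩ := Metric.cauchySeq_iff.1 (hs d).cauchySeq ε hε
    refine ⟨N, fun m hm n hn => ?_⟩
    rw [dist_eq_norm]
    refine lt_of_le_of_lt (hθ (.diff (s d m) (s d n))) ?_
    have := hN m hm n hn
    rwa [dist_eq_norm] at this
  choose Θ hΘ using hcauchy
  have squeeze : ∀ (f : ℕ → Rel) {L : AOmega A ω},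
      Tendsto (fun k => (f k).eval q θ (fun j => emb ω (a j))) atTop (𝓝 L) →
      Tendsto (fun k => (f k).eval q x 0) atTop (𝓝 0) → L = 0 := fun f L h1 h2 =>
    norm_le_zero_iff.1 (le_of_tendsto_of_tendsto' h1.norm
      (tendsto_zero_iff_norm_tendsto_zero.1 h2) fun k => hθ (f k))
  have hadd : ∀ d e, Θ (d + e) = Θ d + Θ e := fun d e => by
    refine (sub_eq_zero.1 (squeeze (fun k => .add (s d k) (s e k) (s (d + e) k))
      (((hΘ d).add (hΘ e)).sub (hΘ (d + e))) ?_)).symm
    simpa [Rel.eval] using ((hs d).add (hs e)).sub (hs (d + e))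
  have hmul : ∀ d e, Θ (d * e) = Θ d * Θ e := fun d e => by
    refine (sub_eq_zero.1 (squeeze (fun k => .mul (s d k) (s e k) (s (d * e) k))
      (((hΘ d).mul (hΘ e)).sub (hΘ (d * e))) ?_)).symm
    simpa [Rel.eval] using ((hs d).mul (hs e)).sub (hs (d * e))
  have hstar : ∀ d, Θ (star d) = star (Θ d) := fun d => by
    refine (sub_eq_zero.1 (squeeze (fun k => .adj (s d k) (s (star d) k))
      ((hΘ d).star.sub (hΘ (star d))) ?_)).symm
    simpa [Rel.eval] using (hs d).star.sub (hs (star d))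
  have halg : ∀ c : ℂ, Θ (algebraMap ℂ D c) = algebraMap ℂ (AOmega A ω) c := by
    intro c
    obtain ⟨u, hu, hlim⟩ := mem_closure_iff_seq_limit.1 (hq c)
    choose t ht using hu
    have ht' : Tendsto (fun k => q (t k)) atTop (𝓝 c) := by
      simpa [show (fun k => q (t k)) = u from funext ht] using hlim
    refine sub_eq_zero.1 (squeeze (fun k => .scal (s (algebraMap ℂ D c) k) (t k))
      ((hΘ _).sub (((continuous_algebraMap ℂ (AOmega A ω)).tendsto c).comp ht')) ?_)
    simpa [Rel.eval] using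
      (hs (algebraMap ℂ D c)).sub (((continuous_algebraMap ℂ D).tendsto c).comp ht')
  have hmem : ∀ d, Θ d ∈ central A ω := fun d =>
    isClosed_central.mem_of_tendsto (hΘ d) (Eventually.of_forall fun k => hcen _)
  refine ⟨
    { toFun := fun d => ⟨Θ d, hmem d⟩
      map_one' := Subtype.ext (by simpa using halg 1)
      map_mul' := fun d e => Subtype.ext (hmul d e)
      map_zero' := Subtype.ext (by simpa using halg 0)
      map_add' := fun d e => Subtype.ext (hadd d e)
      commutes' := fun c => Subtype.ext (halg c)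
      map_star' := fun d => Subtype.ext (hstar d) }, fun i => ?_⟩
  refine sub_eq_zero.1 (squeeze (fun k => .diff (s (x i) k) i) ((hΘ (x i)).sub tendsto_const_nhds) ?_)
  simpa [Rel.eval] using (hs (x i)).sub (tendsto_const_nhds : Tendsto (fun _ : ℕ => x i) atTop (𝓝 (x i)))

/-- Countable saturation: local maps fixed by finitely many elements give one fixed map. -/
theorem localFixed {G : Type} [Group G] [Countable G] (A D : Type) [CStarAlgebra A] [CStarAlgebra D]
    [SeparableSpace A] [SeparableSpace D] (ω : Ultrafilter ℕ) (hω : (ω : Filter ℕ) ≤ cofinite)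
    (α : G → A ≃⋆ₐ[ℂ] A)
    (hloc : ∀ (T : Finset G) (P : Finset D) (ε : ℝ), 0 < ε → ∃ (S : StarSubalgebra ℂ D),
      IsClosed (S : Set D) ∧ (∃ ρ : S →⋆ₐ[ℂ] CentralAlgebra ω A,
        ∀ g ∈ T, ∀ y, centralAct ω α g (ρ y) = ρ y) ∧
      ∀ x ∈ P, ∃ y ∈ S, ‖x - y‖ ≤ ε) :
    ∃ ψ : D →⋆ₐ[ℂ] CentralAlgebra ω A, ∀ g d, centralAct ω α g (ψ d) = ψ d := by
  classical
  obtain ⟨enum, henum⟩ := exists_surjective_nat G
  set x : ℕ → D := denseSeq D
  set a : ℕ → A := denseSeq A
  set q : ℕ → ℂ := denseSeq ℂ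
  have hk : ∀ k : ℕ, ∃ S : StarSubalgebra ℂ D, IsClosed (S : Set D) ∧
      (∃ ρ : S →⋆ₐ[ℂ] CentralAlgebra ω A, ∀ j ≤ k, ∀ y, centralAct ω α (enum j) (ρ y) = ρ y) ∧
      ∃ y : ℕ → S, ∀ i ≤ k, ‖x i - y i‖ ≤ 1 / (k + 1 : ℝ) := by
    intro k
    obtain ⟨S, hS, hρ, hy⟩ := hloc ((Finset.range (k + 1)).image enum)
      ((Finset.range (k + 1)).image x) (1 / (k + 1 : ℝ))
      (by positivity)
    have hy' : ∀ i, ∃ y : S, i ≤ k → ‖x i - y‖ ≤ 1 / (k + 1 : ℝ) := fun i => by
      by_cases hi : i ≤ k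
      · obtain ⟨y, hyS, hyn⟩ := hy (x i)
          (Finset.mem_image_of_mem x (Finset.mem_range.2 (by omega)))
        exact ⟨⟨y, hyS⟩, fun _ => hyn⟩
      · exact ⟨0, fun h => absurd h hi⟩
    choose y hy using hy'
    obtain ⟨ρ, hρ⟩ := hρ
    exact ⟨S, hS, ⟨ρ, fun j hj => hρ _ (Finset.mem_image_of_mem enum (Finset.mem_range.2 (by omega)))⟩,
      y, hy⟩
  choose S hS hρ y hy using hk
  choose ρ hρfix using hρ
  have hyx : ∀ i, Tendsto (fun k => (y k i : D)) atTop (𝓝 (x i)) := fun i => by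
    refine tendsto_iff_norm_sub_tendsto_zero.2 (squeeze_zero' (Eventually.of_forall fun _ =>
      norm_nonneg _) ?_ tendsto_one_div_add_atTop_nhds_zero_nat)
    filter_upwards [eventually_ge_atTop i] with k hki
    rw [norm_sub_rev]
    exact hy k i hki
  set θk : ℕ → ℕ → AOmega A ω := fun k i => (central A ω).subtype (ρ k (y k i)) with hθk
  have hlift : ∀ k i, ∃ v : ℕ →ᵇ A, cls ω v = θk k i := fun k i => cls_surjective _
  choose v hv using hlift
  set cst : ℕ → ℕ →ᵇ A := fun j => BoundedContinuousFunction.const ℕ (a j) with hcst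
  have hev : ∀ r : Rel, ∀ ε : ℝ, 0 < ε → ∀ᶠ k in atTop, ∀ᶠ n in (ω : Filter ℕ),
      ‖r.eval q (v k) cst n‖ < ‖r.eval q x 0‖ + ε := by
    intro r ε hε
    filter_upwards [(tendsto_eval q hyx r).norm.eventually
      (gt_mem_nhds (lt_add_of_pos_right ‖r.eval q x 0‖ hε))] with k hk
    refine (tendsto_omegaNorm ω (r.eval q (v k) cst)).eventually (gt_mem_nhds ?_)
    rw [← norm_cls, Rel.eval_map]
    have hb : ∀ j, cls ω (cst j) = emb ω (a j) := fun j => rfl
    simp only [hv, hb]
    rw [Rel.eval_eq_zero_right q (θk k) (fun j => emb ω (a j))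
      fun i j => mem_central.1 (ρ k (y k i)).2 (a j)]
    have e : r.eval q (θk k) 0 = (central A ω).subtype (ρ k (r.eval q (y k) 0)) := by
      rw [Rel.eval_map, Rel.eval_map]
      simp only [Pi.zero_apply, map_zero]
      rfl
    have e' : r.eval q (fun i => (y k i : D)) 0 = (S k).subtype (r.eval q (y k) 0) := by
      rw [Rel.eval_map]
      simp only [Pi.zero_apply, map_zero]
      rfl
    rw [e]
    refine lt_of_le_of_lt ?_ hk
    rw [e']
    have : IsClosed (S k : Set D) := hS k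
    exact NonUnitalStarAlgHom.norm_apply_le (ρ k) (r.eval q (y k) 0)
  have hfix : ∀ p : ℕ × ℕ, ∀ ε : ℝ, 0 < ε → ∀ᶠ k in atTop, ∀ᶠ n in (ω : Filter ℕ),
      ‖α (enum p.2) (v k p.1 n) - v k p.1 n‖ < 0 + ε := by
    intro p ε hε
    filter_upwards [eventually_ge_atTop p.2] with k hk
    have h := congrArg Subtype.val (hρfix k p.2 hk (y k p.1))
    rw [centralAct_coe] at h
    have h' : omegaMap ω (α (enum p.2)).toStarAlgHom (cls ω (v k p.1)) = cls ω (v k p.1) := by
      rw [hv]
      exact h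
    rw [omegaMap_cls, cls_eq_iff] at h'
    rw [zero_add]
    exact h'.eventually (gt_mem_nhds hε)
  obtain ⟨κ, hκ'⟩ := exists_diag hω
    (fun (r : Rel ⊕ ℕ × ℕ) k n => r.elim (fun r => ‖r.eval q (v k) cst n‖)
      fun p => ‖α (enum p.2) (v k p.1 n) - v k p.1 n‖)
    (fun r => r.elim (fun r => ‖r.eval q x 0‖) fun _ => 0)
    (fun j => Sum.rec hev hfix j)
  have hκ := fun r : Rel => hκ' (.inl r)
  have hbound : ∀ i n, ‖(if ‖v (κ n) i n‖ ≤ ‖x i‖ + 1 then v (κ n) i n else 0)‖ ≤ ‖x i‖ + 1 := by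
    intro i n
    split_ifs with h
    · exact h
    · rw [norm_zero]; positivity
  set w : ℕ → ℕ →ᵇ A := fun i => BoundedContinuousFunction.ofNormedAddCommGroup _
    continuous_of_discreteTopology (‖x i‖ + 1) (hbound i) with hw
  have hw' : ∀ i, ∀ᶠ n in (ω : Filter ℕ), w i n = v (κ n) i n := fun i =>
    (hκ (.gen i) 1 one_pos).mono fun n hn => if_pos hn.le
  suffices hrel : ∀ r : Rel, ‖r.eval q (fun i => cls ω (w i)) (fun j => emb ω (a j))‖
      ≤ ‖r.eval q x 0‖ by
    obtain ⟨ψ, hψ⟩ := exists_extension (denseRange_denseSeq D) (denseRange_denseSeq ℂ)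
      (denseRange_denseSeq A) (fun i => cls ω (w i)) hrel
    refine ⟨ψ, fun g d => ?_⟩
    obtain ⟨j, rfl⟩ := henum g
    have hc : ∀ f : CentralAlgebra ω A →⋆ₐ[ℂ] CentralAlgebra ω A, Continuous f := fun f =>
      AddMonoidHomClass.continuous_of_bound f 1 fun z => by
        simpa using NonUnitalStarAlgHom.norm_apply_le f z
    have hψc : Continuous ψ := AddMonoidHomClass.continuous_of_bound ψ 1 fun z => by
      simpa using NonUnitalStarAlgHom.norm_apply_le ψ z
    refine congrFun ((denseRange_denseSeq D).equalizer (g := fun d => centralAct ω α (enum j) (ψ d))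
      (h := fun d => ψ d) ((hc _).comp hψc) hψc (funext fun i => Subtype.ext ?_)) d
    show omegaMap ω (α (enum j)).toStarAlgHom (ψ (x i)).1 = (ψ (x i)).1
    rw [hψ, omegaMap_cls, cls_eq_iff]
    refine Metric.tendsto_nhds.2 fun ε hε => ?_
    filter_upwards [hκ' (.inr (i, j)) ε hε, hw' i] with n hn hwn
    rw [dist_zero_right, norm_norm]
    show ‖α (enum j) (w i n) - w i n‖ < ε
    rw [hwn]
    simpa using hn
  intro r
  have e : r.eval q (fun i => cls ω (w i)) (fun j => emb ω (a j)) = cls ω (r.eval q w cst) := by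
    rw [Rel.eval_map]
    rfl
  rw [e, norm_cls]
  refine le_of_forall_pos_le_add fun ε hε => le_of_tendsto (tendsto_omegaNorm ω _) ?_
  have hagree : ∀ᶠ n in (ω : Filter ℕ), r.eval q w cst n = r.eval q (v (κ n)) cst n := by
    cases r with
    | gen i => exact hw' i
    | diff i j => filter_upwards [hw' i, hw' j] with n h1 h2; simp [Rel.eval, h1, h2]
    | add i j l => filter_upwards [hw' i, hw' j, hw' l] with n h1 h2 h3; simp [Rel.eval, h1, h2, h3]
    | mul i j l => filter_upwards [hw' i, hw' j, hw' l] with n h1 h2 h3; simp [Rel.eval, h1, h2, h3]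
    | adj i j => filter_upwards [hw' i, hw' j] with n h1 h2; simp [Rel.eval, h1, h2]
    | scal i j => filter_upwards [hw' i] with n h1; simp [Rel.eval, h1]
    | comm i j => filter_upwards [hw' i] with n h1; simp [Rel.eval, h1]
  filter_upwards [hagree, hκ r ε hε] with n h1 h2
  rw [h1]
  exact h2.le

end

end Vale.Agent.P095.Equiv
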