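import Vale.Agent.P095.Equiv.Core
import Vale.Agent.P095.Equiv.Copies
import Vale.Agent.P095.Equiv.LocalFixed
import Vale.Agent.P101.Bridge.Final

/-!
# P095: a fixed central map of `𝒵` for locally finite group actions
-/

namespace Vale.Agent.P095.Equiv

open Filter Topology TopologicalSpace Vale.Agent.P101.KR Vale.Agent.P101.Bridge

noncomputable section

variable {G : Type} [Group G] {F : Type} [CStarAlgebra F]

/-- The inclusion of subalgebras does not move elements. -/
theorem coe_inclusion {S₁ S₂ : StarSubalgebra ℂ F} (h : S₁ ≤ S₂) (x : S₁) :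
    (StarSubalgebra.inclusion h x : F) = x := rfl

/-- A subgroup's fixed algebra keeps the copies. -/
theorem hasCopies_fixed [Countable G] {β : G → F →⋆ₐ[ℂ] F} (hact : IsAct β)
    (h : HasEquivCopies β) (H : Subgroup G) [IsClosed (fixed (fun g : H => β g) : Set F)] :
    HasCopies (fixed (fun g : H => β g)) := by
  intro s hs m
  set s₀ : Set F := Subtype.val '' s
  set s' : Set F := ⋃ g, β g '' s₀
  have hs' : s'.Countable := Set.countable_iUnion fun g => (hs.image _).image _
  have hmaps : ∀ g, Set.MapsTo (β g) s' s' := fun g y hy => by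
    obtain ⟨k, z, hz, rfl⟩ := Set.mem_iUnion.1 hy
    exact Set.mem_iUnion.2 ⟨g * k, z, hz, hact.mul g k z⟩
  obtain ⟨κ, hκ, hκe⟩ := h s' hs' hmaps
  have hle : Cl s ≤ (Cl s').comap (fixed (fun g : H => β g)).subtype := by
    refine StarSubalgebra.topologicalClosure_minimal (StarAlgebra.adjoin_le fun z hz =>
      StarSubalgebra.le_topologicalClosure _ (StarAlgebra.subset_adjoin ℂ s'
        (Set.mem_iUnion.2 ⟨1, z.1, ⟨z, hz, rfl⟩, hact.one _⟩)))
      ((isClosed_Cl s').preimage continuous_subtype_val)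
  let incl : Cl s →⋆ₐ[ℂ] Cl s' :=
    ((fixed (fun g : H => β g)).subtype.comp (Cl s).subtype).codRestrict (Cl s') fun x => hle x.2
  have hfix : ∀ (i : ℕ) (x : Cl s), (κ i).comp incl x ∈ fixed (fun g : H => β g) := fun i x =>
    Core.mem_fixed.2 fun g => hκe i g (incl x) (incl x) (Core.mem_fixed.1 x.1.2 g)
  exact ⟨⟨fun i => ((κ i).comp incl).codRestrict _ (hfix i), fun i j hij a b =>
    Subtype.ext (hκ i j (fun e => hij (Fin.ext e)) _ _)⟩⟩

/-- Local maps into the algebra fixed by a finite subgroup. -/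
theorem localMap_of [Countable G] {β : G → F →⋆ₐ[ℂ] F} (hact : IsAct β) (hcop : HasEquivCopies β)
    (hF : NoCharacter F) {D : Type} [CStarAlgebra D] (hD : IsJiangSu D) (H : Subgroup G)
    [Fintype H] (P : Finset D) {ε : ℝ} (hε : 0 < ε) :
    ∃ S : StarSubalgebra ℂ D, IsClosed (S : Set D) ∧
      (∃ ρ : S →⋆ₐ[ℂ] F, ∀ g ∈ H, ∀ y, β g (ρ y) = ρ y) ∧ ∀ x ∈ P, ∃ y ∈ S, ‖x - y‖ ≤ ε := by
  obtain ⟨n, hne, hn, ι, hι, hG⟩ := hD.locallyDrop P ε hε
  set βH : H → F →⋆ₐ[ℂ] F := fun g => β g
  have hactH : IsAct βH := ⟨fun x => hact.one x, fun g k x => hact.mul g k x⟩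
  have hcopH : HasEquivCopies βH := by
    intro s hs _
    set s' : Set F := ⋃ g, β g '' s
    have hs' : s'.Countable := Set.countable_iUnion fun g => hs.image _
    have hmaps : ∀ g, Set.MapsTo (β g) s' s' := fun g y hy => by
      obtain ⟨k, z, hz, rfl⟩ := Set.mem_iUnion.1 hy
      exact Set.mem_iUnion.2 ⟨g * k, z, hz, hact.mul g k z⟩
    obtain ⟨κ, hκ, hκe⟩ := hcop s' hs' hmaps
    have hle : Cl s ≤ Cl s' := StarSubalgebra.topologicalClosure_mono
      (StarAlgebra.adjoin_le fun z hz => StarAlgebra.subset_adjoin ℂ s'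
        (Set.mem_iUnion.2 ⟨1, z, hz, hact.one z⟩))
    exact ⟨fun i => (κ i).comp (StarSubalgebra.inclusion hle), fun i j hij a b => hκ i j hij _ _,
      fun i g x y hxy => by
        have h : β (g : G) (κ i (StarSubalgebra.inclusion hle x))
            = κ i (StarSubalgebra.inclusion hle y) := by
          refine hκe i (g : G) (StarSubalgebra.inclusion hle x) (StarSubalgebra.inclusion hle y) ?_
          rw [coe_inclusion hle x, coe_inclusion hle y]
          exact hxy
        exact h⟩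
  have : IsClosed (fixed βH : Set F) := Core.isClosed_fixed βH
  have hno : NoCharacter (fixed βH) := core_of H F βH hactH hcopH hF
  obtain ⟨d⟩ := allDrops_of (fixed βH) (hasCopies_fixed hact hcop H) hno n hn
  obtain ⟨f⟩ := dropHom_of n (fixed βH) d
  refine ⟨ι.range, (NonUnitalStarAlgHom.isometry ι hι).isClosedEmbedding.isClosed_range,
    ⟨(fixed βH).subtype.comp (f.comp (StarAlgEquiv.ofInjective ι hι).symm.toStarAlgHom),
      fun g hg y => Core.mem_fixed.1 (f ((StarAlgEquiv.ofInjective ι hι).symm y)).2 ⟨g, hg⟩⟩,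
    fun x hx => ?_⟩
  obtain ⟨y, hy⟩ := hG x hx
  exact ⟨ι y, ⟨y, rfl⟩, hy⟩

/-- The statement about fixed central maps. -/
theorem fixedMap_of : FixedMapStatement := by
  intro G _ _ hLF A _ _ ω hω hchar α hα D _ hD
  have := hD.separable
  have hact := isAct_centralAct (ω := ω) α hα
  have hcop := hasEquivCopies hω α hα
  refine localFixed A D ω hω α fun T P ε hε => ?_
  obtain ⟨H, hH, hT⟩ := hLF T
  have : Fintype H := hH.fintype
  obtain ⟨S, hS, ⟨ρ, hρ⟩, hP⟩ := localMap_of hact hcop hchar hD H P hε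
  exact ⟨S, hS, ⟨ρ, fun g hg y => hρ g (hT hg) y⟩, hP⟩

end

end Vale.Agent.P095.Equiv
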