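import Vale.Agent.P095.Equiv.Defs
import Vale.Agent.P101.Bridge.Absorb

/-!
# P095: equivariant approximate intertwining
-/

namespace Vale.Agent.P095.Equiv

open Filter Topology Vale.Agent.P101.KR Vale.Agent.P101.Bridge TopologicalSpace

theorem intertwine_of : Vale.Agent.P095.Equiv.IntertwineStatement := by
  intro G _ _ A C _ _ _ _ α γ φ hγ hφ hequiv H
  classical
  obtain ⟨e, he⟩ := exists_surjective_nat G
  have hiso : ∀ x, ‖φ x‖ = ‖x‖ := fun x => NonUnitalStarAlgHom.norm_map φ hφ x
  set a : ℕ → A := denseSeq A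
  set c : ℕ → C := denseSeq C
  let ε : ℕ → ℝ := fun n => (1 / 2) ^ n
  have hε : ∀ n, 0 < ε n := fun n => by positivity
  -- one step
  have step : ∀ (n : ℕ) (st : unitary C × Finset A), ∃ (z : unitary C) (b : ℕ → A),
      (∀ i ≤ n, ‖(z : C) * φ (a i) - φ (a i) * z‖ ≤ ε n) ∧
      (∀ x ∈ st.2, ‖(z : C) * φ x - φ x * z‖ ≤ ε n) ∧
      (∀ i ≤ n, ‖γ (e i) (z : C) - z‖ ≤ ε n) ∧
      ∀ j ≤ n, ‖conjHom (st.1 * z) (φ (b j)) - c j‖ ≤ ε n := by
    intro n st
    obtain ⟨z, hz0, hz1, hz2⟩ := H ((Finset.range (n + 1)).image e) ((Finset.range (n + 1)).image a ∪ st.2)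
      ((Finset.range (n + 1)).image fun j => star (st.1 : C) * c j * st.1) (ε n) (hε n)
    have : ∀ j, ∃ b : A, j ≤ n → ‖conjHom (st.1 * z) (φ b) - c j‖ ≤ ε n := by
      intro j
      by_cases hj : j ≤ n
      · obtain ⟨b, hb⟩ := hz2 _ (Finset.mem_image_of_mem _ (Finset.mem_range.2 (by omega : j < n + 1)))
        refine ⟨b, fun _ => ?_⟩
        rw [norm_sub_rev] at hb
        refine le_trans (le_of_eq ?_) hb
        rw [← norm_conj_unitary (st.1 * z) (φ b - star (z : C) * (star (st.1 : C) * c j * st.1) * z),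
          ← conjHom_apply (st.1 * z) (φ b - _), map_sub]
        have e : conjHom (st.1 * z) (star (z : C) * (star (st.1 : C) * c j * st.1) * z) = c j := by
          rw [conjHom_apply, Submonoid.coe_mul, star_mul]
          have h1 : (z : C) * star (z : C) = 1 := Unitary.coe_mul_star_self z
          have h2 : (st.1 : C) * star (st.1 : C) = 1 := Unitary.coe_mul_star_self st.1
          calc (st.1 : C) * z * (star (z : C) * (star (st.1 : C) * c j * st.1) * z)
                * (star (z : C) * star (st.1 : C))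
              = (st.1 : C) * ((z : C) * star (z : C)) * star (st.1 : C) * c j * st.1
                * ((z : C) * star (z : C)) * star (st.1 : C) := by noncomm_ring
            _ = ((st.1 : C) * star (st.1 : C)) * c j * ((st.1 : C) * star (st.1 : C)) := by
                rw [h1]; noncomm_ring
            _ = c j := by rw [h2]; simp
        rw [e]
      · exact ⟨0, fun h => absurd h hj⟩
    choose b hb using this
    exact ⟨z, b, fun i hi => hz1 _ (Finset.mem_union_left _
      (Finset.mem_image_of_mem _ (Finset.mem_range.2 (by omega)))),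
      fun x hx => hz1 _ (Finset.mem_union_right _ hx),
      fun i hi => hz0 _ (Finset.mem_image_of_mem _ (Finset.mem_range.2 (by omega))), hb⟩
  choose Z B hZa hZS hZG hB using step
  let st : ℕ → unitary C × Finset A := fun n => n.rec (1, ∅) fun k s =>
    (s.1 * Z k s, s.2 ∪ (Finset.range (k + 1)).image (B k s))
  have hst : ∀ n, st (n + 1) = ((st n).1 * Z n (st n),
      (st n).2 ∪ (Finset.range (n + 1)).image (B n (st n))) := fun n => rfl
  let Ψ : ℕ → A →⋆ₐ[ℂ] C := fun n => (conjHom (st n).1).comp φ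
  have hΨn : ∀ n x, ‖Ψ n x‖ = ‖x‖ := fun n x => (norm_conj_unitary _ _).trans (hiso x)
  have hdiff : ∀ n x, ‖Ψ (n + 1) x - Ψ n x‖ = ‖(Z n (st n) : C) * φ x - φ x * Z n (st n)‖ := by
    intro n x
    set z := Z n (st n)
    have e : Ψ (n + 1) x - Ψ n x
        = conjHom (st n).1 (((z : C) * φ x - φ x * z) * star (z : C)) := by
      show conjHom (st (n + 1)).1 (φ x) - conjHom (st n).1 (φ x) = _
      have h1 : (z : C) * star (z : C) = 1 := Unitary.coe_mul_star_self z
      rw [hst, conjHom_apply, conjHom_apply, conjHom_apply, Submonoid.coe_mul, star_mul,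
        sub_mul _ _ (star (z : C)), mul_assoc (φ x) _ (star (z : C)), h1]
      noncomm_ring
    rw [e, conjHom_apply, norm_conj_unitary, ← Unitary.coe_star, CStarRing.norm_mul_coe_unitary]
  have hmono : ∀ n m, n ≤ m → (st n).2 ⊆ (st m).2 := fun n m h => by
    induction h with
    | refl => exact subset_rfl
    | step _ ih => exact ih.trans (by rw [hst]; exact Finset.subset_union_left)
  have hgeo : ∀ (k : ℕ) (x : A), (∀ m, k ≤ m → ‖(Z m (st m) : C) * φ x - φ x * Z m (st m)‖ ≤ ε m) →
      ∀ m, k ≤ m → ‖Ψ m x - Ψ k x‖ ≤ 2 * ε k - 2 * ε m := by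
    intro k x hx m hm
    induction m, hm using Nat.le_induction with
    | base => simp
    | succ m hm ih =>
      refine (norm_sub_le_norm_sub_add_norm_sub _ (Ψ m x) _).trans ?_
      have := (hdiff m x).trans_le (hx m hm)
      have e : ε (m + 1) = ε m / 2 := by simp only [ε, pow_succ]; ring
      linarith
  have hεlim : Tendsto ε atTop (𝓝 0) := tendsto_pow_atTop_nhds_zero_of_lt_one (by norm_num) (by norm_num)
  have hcauchy : ∀ x, CauchySeq fun n => Ψ n x := by
    intro x
    refine Metric.cauchySeq_iff'.2 fun δ hδ => ?_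
    obtain ⟨i, hi⟩ := (denseRange_denseSeq A).exists_dist_lt x (show 0 < δ / 4 by positivity)
    obtain ⟨N, hN⟩ := eventually_atTop.1 ((hεlim.eventually (gt_mem_nhds (show 0 < δ / 4 by positivity))).and
      (eventually_ge_atTop i))
    refine ⟨N, fun m hm => ?_⟩
    have h1 := hgeo N (a i) (fun m' hm' => hZa m' _ i ((hN N le_rfl).2.trans hm')) m hm
    have h2 : ∀ k, ‖Ψ k x - Ψ k (a i)‖ < δ / 4 := fun k => by
      rw [← map_sub, hΨn, ← dist_eq_norm]; exact hi
    have := hε m
    have := (hN N le_rfl).1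
    rw [dist_eq_norm]
    calc ‖Ψ m x - Ψ N x‖ ≤ ‖Ψ m x - Ψ m (a i)‖ + ‖Ψ m (a i) - Ψ N (a i)‖ + ‖Ψ N (a i) - Ψ N x‖ :=
          norm_sub_le_norm_sub_add_norm_sub _ _ _ |>.trans (add_le_add_left
            (norm_sub_le_norm_sub_add_norm_sub _ _ _) _)
      _ < δ := by rw [norm_sub_rev (Ψ N (a i))]; linarith [h2 m, h2 N]
  choose ψ hψ using fun x => cauchySeq_tendsto_of_complete (hcauchy x)
  let Ψlim : A →⋆ₐ[ℂ] C :=
    { toFun := ψ
      map_one' := tendsto_nhds_unique (hψ 1) (by simp)
      map_zero' := tendsto_nhds_unique (hψ 0) (by simp)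
      map_mul' := fun x y => tendsto_nhds_unique (hψ _) (by simpa using (hψ x).mul (hψ y))
      map_add' := fun x y => tendsto_nhds_unique (hψ _) (by simpa using (hψ x).add (hψ y))
      commutes' := fun r => tendsto_nhds_unique (hψ _) (by simp [AlgHomClass.commutes])
      map_star' := fun x => tendsto_nhds_unique (hψ _)
        (((continuous_star.tendsto _).comp (hψ x)).congr fun n => (map_star (Ψ n) x).symm) }
  have hnorm : ∀ x, ‖Ψlim x‖ = ‖x‖ := fun x =>
    tendsto_nhds_unique (hψ x).norm (by simp [hΨn])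
  have hisom : Isometry Ψlim := AddMonoidHomClass.isometry_of_norm _ hnorm
  have hdense : DenseRange Ψlim := by
    intro y
    rw [Metric.mem_closure_iff]
    intro δ hδ
    obtain ⟨j, hj⟩ := (denseRange_denseSeq C).exists_dist_lt y (show 0 < δ / 2 by positivity)
    obtain ⟨n, hjn, hn⟩ := ((eventually_ge_atTop j).and
      (hεlim.eventually (gt_mem_nhds (show 0 < δ / 6 by positivity)))).exists
    set b := B n (st n) j
    refine ⟨Ψlim b, ⟨b, rfl⟩, ?_⟩
    have hb : b ∈ (st (n + 1)).2 := by
      rw [hst]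
      exact Finset.mem_union_right _ (Finset.mem_image_of_mem _ (Finset.mem_range.2 (by omega)))
    have h1 : ‖Ψlim b - Ψ (n + 1) b‖ ≤ 2 * ε (n + 1) :=
      le_of_tendsto ((hψ b).sub_const _).norm (eventually_atTop.2 ⟨n + 1, fun m hm => by
        have := hgeo (n + 1) b (fun m' hm' => hZS m' _ b (hmono _ _ hm' hb)) m hm
        linarith [hε m]⟩)
    have h2 : ‖Ψ (n + 1) b - c j‖ ≤ ε n := by
      have := hB n (st n) j hjn
      simpa [Ψ, hst] using this
    have e : ε (n + 1) = ε n / 2 := by simp only [ε, pow_succ]; ring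
    have h3 := norm_sub_le_norm_sub_add_norm_sub (Ψlim b) (Ψ (n + 1) b) (c j)
    rw [dist_eq_norm] at hj ⊢
    have h4 := norm_sub_le_norm_sub_add_norm_sub y (c j) (Ψlim b)
    rw [norm_sub_rev (c j) (Ψlim b)] at h4
    linarith [hε n]
  have hsurj : Function.Surjective Ψlim := fun y => by
    have := hisom.isClosedEmbedding.isClosed_range.closure_eq ▸ hdense y
    exact this
  let V : ℕ → C := fun n => ((st n).1 : C)
  have hV1 : ∀ n, star (V n) * V n = 1 := fun n => Unitary.coe_star_mul_self (st n).1
  have hV2 : ∀ n, V n * star (V n) = 1 := fun n => Unitary.coe_mul_star_self (st n).1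
  have hVu : ∀ n, V n ∈ unitary C := fun n => (st n).1.2
  have hγu : ∀ g n, γ g (star (V n)) ∈ unitary C := fun g n =>
    Unitary.mem_iff.2 ⟨by rw [← map_star, ← map_mul, star_star, hV2, map_one],
      by rw [← map_star, ← map_mul, star_star, hV1, map_one]⟩
  let u : ℕ → G → C := fun n g => V n * γ g (star (V n))
  have hud : ∀ (n : ℕ) (g : G), ‖u (n + 1) g - u n g‖
      = ‖γ g (Z n (st n) : C) - (Z n (st n) : C)‖ := by
    intro n g
    set z := Z n (st n) with hz
    have hz1 : star (z : C) * z = 1 := Unitary.coe_star_mul_self z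
    have hγz : γ g (star (z : C)) ∈ unitary C :=
      Unitary.mem_iff.2 ⟨by rw [← map_star, ← map_mul, star_star, Unitary.mul_star_self_of_mem z.2, map_one],
        by rw [← map_star, ← map_mul, star_star, hz1, map_one]⟩
    have hV : V (n + 1) = V n * z := by
      show ((st (n + 1)).1 : C) = _
      rw [hst]
      rfl
    have e1 : u (n + 1) g - u n g
        = V n * (((z : C) - γ g z) * γ g (star (z : C))) * γ g (star (V n)) := by
      show V (n + 1) * γ g (star (V (n + 1))) - V n * γ g (star (V n)) = _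
      rw [hV, star_mul, map_mul, sub_mul (z : C) (γ g z), ← map_mul (γ g) (z : C),
        Unitary.mul_star_self_of_mem z.2, map_one]
      noncomm_ring
    rw [e1, CStarRing.norm_mul_mem_unitary _ (hγu g n), CStarRing.norm_mem_unitary_mul _ (hVu n),
      CStarRing.norm_mul_mem_unitary _ hγz, norm_sub_rev]
  have hucauchy : ∀ g, CauchySeq fun n => u n g := by
    intro g
    obtain ⟨i, rfl⟩ := he g
    refine (cauchySeq_shift i).1 (cauchySeq_of_le_geometric (1 / 2 : ℝ) (ε i) (by norm_num) fun n => ?_)
    rw [dist_comm, dist_eq_norm, add_right_comm, hud]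
    refine (hZG _ _ i (Nat.le_add_left i n)).trans (le_of_eq ?_)
    simp only [ε, pow_add]
    ring
  choose U hU using fun g => cauchySeq_tendsto_of_complete (hucauchy g)
  have hγc : ∀ g, Continuous (γ g) := fun g => starHom_continuous (γ g)
  have hstarU : ∀ g, Tendsto (fun n => star (u n g)) atTop (𝓝 (star (U g))) := fun g =>
    (continuous_star.tendsto _).comp (hU g)
  have hu1 : ∀ n g, star (u n g) * u n g = 1 := fun n g => by
    have := Unitary.star_mul_self_of_mem (mul_mem (hVu n) (hγu g n))
    exact this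
  have hu2 : ∀ n g, u n g * star (u n g) = 1 := fun n g => by
    have := Unitary.mul_star_self_of_mem (mul_mem (hVu n) (hγu g n))
    exact this
  refine ⟨StarAlgEquiv.ofBijective Ψlim ⟨hisom.injective, hsurj⟩, U, fun g => ⟨?_, ?_⟩,
    fun g h => ?_, fun g a => ?_⟩
  · exact tendsto_nhds_unique ((hstarU g).mul (hU g))
      (tendsto_const_nhds.congr fun n => (hu1 n g).symm)
  · exact tendsto_nhds_unique ((hU g).mul (hstarU g))
      (tendsto_const_nhds.congr fun n => (hu2 n g).symm)
  · refine tendsto_nhds_unique (hU (g * h))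
      (((hU g).mul (((hγc g).tendsto _).comp (hU h))).congr fun n => ?_)
    show V n * γ g (star (V n)) * γ g (V n * γ h (star (V n))) = V n * γ (g * h) (star (V n))
    rw [mul_assoc, ← map_mul (γ g), ← mul_assoc (star (V n)), hV1, one_mul, hγ.mul]
  · show ψ (α g a) = U g * γ g (ψ a) * star (U g)
    refine tendsto_nhds_unique (hψ (α g a))
      ((((hU g).mul (((hγc g).tendsto _).comp (hψ a))).mul (hstarU g)).congr fun n => ?_)
    show V n * γ g (star (V n)) * γ g (V n * φ a * star (V n)) * star (V n * γ g (star (V n)))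
      = V n * φ (α g a) * star (V n)
    rw [star_mul, ← map_star, star_star, ← hequiv]
    have h1 : γ g (star (V n)) * γ g (V n * φ a * star (V n)) * γ g (V n) = γ g (φ a) := by
      rw [← map_mul, ← map_mul]
      congr 1
      calc star (V n) * (V n * φ a * star (V n)) * V n
          = (star (V n) * V n) * φ a * (star (V n) * V n) := by noncomm_ring
        _ = φ a := by rw [hV1, one_mul, mul_one]
    calc V n * γ g (star (V n)) * γ g (V n * φ a * star (V n)) * (γ g (V n) * star (V n))
        = V n * (γ g (star (V n)) * γ g (V n * φ a * star (V n)) * γ g (V n)) * star (V n) := by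
          noncomm_ring
      _ = V n * γ g (φ a) * star (V n) := by rw [h1]

end Vale.Agent.P095.Equiv
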