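import Vale.Agent.P095.Equiv.OmegaDefs
import Vale.Agent.P095.Equiv.Intertwine
import Vale.Agent.P101.Bridge.Final

/-!
# P095: a fixed central map gives equivariant absorption
-/

namespace Vale.Agent.P095.Equiv

open Filter Topology Vale.Agent.P101.KR Vale.Agent.P101.Bridge TopologicalSpace
  BoundedContinuousFunction

variable {A C D : Type} [CStarAlgebra A] [CStarAlgebra C] [CStarAlgebra D]

theorem absorb_of : Vale.Agent.P095.Equiv.AbsorbStatement := by
  intro G _ _ A D C _ _ _ _ _ ω hω hflip α₀ ψ hψfix ιA ιD γ hT hext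
  classical
  obtain ⟨e, he⟩ := exists_surjective_nat G
  have := separable_completion hT
  obtain ⟨g, hg, hgc⟩ := exists_mapOmega ω ιA hT.injective
  let M₀ : StarSubalgebra ℂ (AOmega C ω) :=
    StarSubalgebra.centralizer ℂ (Set.range ((emb ω).comp ιA))
  let M : StarSubalgebra ℂ (AOmega C ω) := M₀ ⊓ fixed (fun g => omegaMap ω (γ g))
  have hfix : ∀ x, x ∈ fixed (fun g => omegaMap ω (γ g)) ↔ ∀ g, omegaMap ω (γ g) x = x :=
    fun x => by rw [fixed, StarSubalgebra.mem_iInf]; rfl
  have hM₀ : ∀ x, x ∈ M₀ ↔ ∀ a, emb ω (ιA a) * x = x * emb ω (ιA a) := by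
    intro x
    simp only [M₀, StarSubalgebra.mem_centralizer_iff]
    constructor
    · exact fun h a => (h _ ⟨a, rfl⟩).1
    · rintro h _ ⟨a, rfl⟩
      refine ⟨h a, ?_⟩
      rw [← map_star]
      exact h _
  have hM : ∀ x, x ∈ M ↔
      (∀ a, emb ω (ιA a) * x = x * emb ω (ιA a)) ∧ ∀ g, omegaMap ω (γ g) x = x := fun x => by
    simp only [M, StarSubalgebra.mem_inf, hM₀, hfix]
  have hMc : IsClosed (M : Set (AOmega C ω)) := by
    have e : (M : Set (AOmega C ω)) = (⋂ a, {x | emb ω (ιA a) * x = x * emb ω (ιA a)}) ∩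
        ⋂ g, {x | omegaMap ω (γ g) x = x} := by
      ext x
      simp [hM]
    rw [e]
    exact (isClosed_iInter fun a => isClosed_eq (continuous_const.fun_mul continuous_id)
      (continuous_id.fun_mul continuous_const)).inter
      (isClosed_iInter fun g => isClosed_eq (starHom_continuous _) continuous_id)
  have : IsClosed (M : Set (AOmega C ω)) := hMc
  have hgemb : ∀ a, g (emb ω a) = emb ω (ιA a) := fun a => hgc _ _ fun k => rfl
  let αf : D →⋆ₐ[ℂ] AOmega C ω := g.comp ((central A ω).subtype.comp ψ)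
  let βf : D →⋆ₐ[ℂ] AOmega C ω := (emb ω).comp ιD
  have hαM : ∀ d, αf d ∈ M := fun d => (hM _).2 ⟨fun a => by
    show emb ω (ιA a) * g (ψ d).1 = g (ψ d).1 * emb ω (ιA a)
    rw [← hgemb, ← map_mul, ← map_mul, (mem_central.1 (ψ d).2) a], fun g' => by
    show omegaMap ω (γ g') (g (ψ d).1) = g (ψ d).1
    have hf : omegaMap ω (α₀ g').toStarAlgHom (ψ d).1 = (ψ d).1 := by
      rw [← centralAct_coe, hψfix]
    obtain ⟨x, hx⟩ := cls_surjective ((ψ d).1 : AOmega A ω)
    rw [← hx, omegaMap_cls] at hf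
    conv_rhs => rw [← hx, ← hf]
    rw [← hx, hgc x (seqMap ιA x) fun k => rfl,
      hgc _ (seqMap ιA (seqMap (α₀ g').toStarAlgHom x)) fun k => rfl, omegaMap_cls]
    exact congrArg (cls ω) (BoundedContinuousFunction.ext fun k => hext.onA g' (x k))⟩
  have hβM : ∀ d, βf d ∈ M := fun d => (hM _).2 ⟨fun a => by
    show emb ω (ιA a) * emb ω (ιD d) = emb ω (ιD d) * emb ω (ιA a)
    rw [← map_mul, ← map_mul, (hT.commute a d).eq], fun g' => by
    show omegaMap ω (γ g') (emb ω (ιD d)) = emb ω (ιD d)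
    rw [omegaMap_emb, hext.onD]⟩
  -- α and β commute
  have hcomm : ∀ a b, Commute (βf a) (αf b) := by
    intro a b
    obtain ⟨x, hx⟩ := cls_surjective ((ψ b).1 : AOmega A ω)
    let y : ℕ →ᵇ C := BoundedContinuousFunction.ofNormedAddCommGroup (fun k => ιA (x k))
      continuous_of_discreteTopology ‖x‖ fun k =>
        ((NonUnitalStarAlgHom.norm_apply_le ιA (x k)).trans (x.norm_coe_le_norm k))
    have e : αf b = cls ω y := by
      show g (ψ b).1 = _
      rw [← hx]
      exact hgc x y fun k => rfl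
    rw [e]
    show cls ω _ * cls ω y = cls ω y * cls ω _
    rw [← map_mul, ← map_mul, cls_eq_iff]
    refine tendsto_const_nhds.congr fun k => ?_
    show (0 : ℝ) = ‖ιD a * ιA (x k) - ιA (x k) * ιD a‖
    rw [(hT.commute (x k) a).eq, sub_self, norm_zero]
  let α : D →⋆ₐ[ℂ] M := αf.codRestrict M hαM
  let β : D →⋆ₐ[ℂ] M := βf.codRestrict M hβM
  set d : ℕ → D := denseSeq D
  set a : ℕ → A := denseSeq A
  -- approximate unitaries, lifted
  have happ : ∀ k : ℕ, ∃ U : ℕ →ᵇ C, (∀ n, U n ∈ unitary C) ∧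
      cls ω U ∈ M ∧ ∀ i ≤ k, ‖cls ω U * βf (d i) * star (cls ω U) - αf (d i)‖ ≤ 1 / ((k : ℝ) + 1) := by
    intro k
    obtain ⟨u, hu⟩ := hflip M β α (fun a b => Subtype.ext (hcomm a b))
      ((Finset.range (k + 1)).image d) (1 / ((k : ℝ) + 1)) (by positivity)
    let u' : unitary (AOmega C ω) := ⟨((u : M) : AOmega C ω),
      ⟨congrArg Subtype.val (Unitary.coe_star_mul_self u), congrArg Subtype.val (Unitary.coe_mul_star_self u)⟩⟩
    obtain ⟨U, hU, hUc⟩ := unitary_lift_of C ω u'
    refine ⟨U, hU, hUc ▸ (u : M).2, fun i hi => ?_⟩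
    rw [hUc]
    exact hu (d i) (Finset.mem_image_of_mem _ (Finset.mem_range.2 (by omega)))
  choose U hUu hUM hUd using happ
  choose P hP using fun i => cls_surjective (αf (d i))
  let X : ℕ → ℕ → Prop := fun k n => k ≤ n ∧ ∀ i ≤ k,
    ‖ιA (a i) * U k n - U k n * ιA (a i)‖ < 2 / ((k : ℝ) + 1) ∧
    ‖U k n * ιD (d i) * star (U k n) - P i n‖ < 2 / ((k : ℝ) + 1) ∧
    ‖γ (e i) (U k n) - U k n‖ < 2 / ((k : ℝ) + 1)
  have hX : ∀ k, ∀ᶠ n in (ω : Filter ℕ), X k n := by
    intro k
    refine (eventually_fine hω k).and ((Set.finite_Iic k).eventually_all.2 fun i hi => ?_)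
    have hk : (0 : ℝ) < 2 / ((k : ℝ) + 1) := by positivity
    refine Eventually.and ?_ (Eventually.and ?_ ?_)
    · have e : cls ω (BoundedContinuousFunction.const ℕ (ιA (a i)) * U k)
          = cls ω (U k * BoundedContinuousFunction.const ℕ (ιA (a i))) := by
        rw [map_mul, map_mul]
        exact ((hM _).1 (hUM k)).1 (a i)
      exact (cls_eq_iff.1 e).eventually (gt_mem_nhds hk)
    · have h := hUd k i hi
      rw [← hP i] at h
      have h' : ‖cls ω (U k * BoundedContinuousFunction.const ℕ (ιD (d i)) * star (U k) - P i)‖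
          ≤ 1 / ((k : ℝ) + 1) := by
        rw [map_sub, map_mul, map_mul, map_star]
        exact h
      refine (tendsto_omegaNorm ω _).eventually (gt_mem_nhds (lt_of_le_of_lt h' ?_))
      exact div_lt_div_of_pos_right (by norm_num) (by positivity)
    · have h := ((hM _).1 (hUM k)).2 (e i)
      rw [omegaMap_cls] at h
      exact (cls_eq_iff.1 h).eventually (gt_mem_nhds hk)
  -- diagonal
  let κ : ℕ → ℕ := fun n => Nat.findGreatest (fun k => X k n) n
  let W : ℕ → C := fun n => U (κ n) n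
  have hWu : ∀ n, W n ∈ unitary C := fun n => hUu _ _
  have hWn : ∀ n, ‖W n‖ ≤ 1 := fun n => by
    rcases subsingleton_or_nontrivial C with hC | hC
    · simp [Subsingleton.elim (W n) 0]
    · exact le_of_eq (CStarRing.norm_of_mem_unitary (hWu n))
  let Wb : ℕ →ᵇ C :=
    BoundedContinuousFunction.ofNormedAddCommGroup W continuous_of_discreteTopology 1 hWn
  have hWX : ∀ k, ∀ᶠ n in (ω : Filter ℕ), k ≤ κ n ∧ X (κ n) n := fun k =>
    (hX k).mono fun n hn => ⟨Nat.le_findGreatest hn.1 hn, Nat.findGreatest_spec (P := fun j => X j n) hn.1 hn⟩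
  have hsmall : ∀ ε : ℝ, 0 < ε → ∀ᶠ k : ℕ in atTop, 2 / ((k : ℝ) + 1) < ε := fun ε hε => by
    have h := (tendsto_one_div_add_atTop_nhds_zero_nat (𝕜 := ℝ)).const_mul 2
    rw [mul_zero] at h
    exact (h.eventually (gt_mem_nhds hε)).mono fun k hk => by rwa [mul_one_div] at hk
  have hzero : ∀ (i : ℕ) (f : ℕ → ℝ), (∀ n, 0 ≤ f n) →
      (∀ n, i ≤ κ n → X (κ n) n → f n < 2 / ((κ n : ℝ) + 1)) →
      Tendsto f (ω : Filter ℕ) (𝓝 0) := by
    intro i f hf0 hf
    refine Metric.tendsto_nhds.2 fun ε hε => ?_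
    obtain ⟨k, hk, hki⟩ := ((hsmall ε hε).and (eventually_ge_atTop i)).exists
    filter_upwards [hWX k] with n hn
    rw [Real.dist_eq, sub_zero, abs_of_nonneg (hf0 n)]
    refine (hf n (hki.trans hn.1) hn.2).trans (lt_of_le_of_lt ?_ hk)
    gcongr
    exact hn.1
  set w := cls ω Wb with hw
  have hwA : ∀ x, emb ω (ιA x) * w = w * emb ω (ιA x) := by
    have hcl : IsClosed {x | emb ω (ιA x) * w = w * emb ω (ιA x)} := by
      have := starHom_continuous ((emb ω).comp ιA)
      exact isClosed_eq (this.fun_mul continuous_const) (continuous_const.fun_mul this)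
    refine fun x => hcl.closure_subset_iff.2 ?_ (denseRange_denseSeq A x)
    rintro _ ⟨i, rfl⟩
    show cls ω _ * cls ω Wb = cls ω Wb * cls ω _
    rw [← map_mul, ← map_mul, cls_eq_iff]
    exact hzero i _ (fun _ => norm_nonneg _) fun n hn hXn => (hXn.2 i hn).1
  have hwD : ∀ x, w * emb ω (ιD x) * star w = αf x := by
    have hcl : IsClosed {x | w * emb ω (ιD x) * star w = αf x} := by
      have := starHom_continuous ((emb ω).comp ιD)
      exact isClosed_eq ((continuous_const.fun_mul this).fun_mul continuous_const) (starHom_continuous αf)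
    refine fun x => hcl.closure_subset_iff.2 ?_ (denseRange_denseSeq D x)
    rintro _ ⟨i, rfl⟩
    show cls ω Wb * cls ω _ * star (cls ω Wb) = αf (d i)
    rw [← hP i, ← map_star, ← map_mul, ← map_mul, cls_eq_iff]
    exact hzero i _ (fun _ => norm_nonneg _) fun n hn hXn => (hXn.2 i hn).2.1
  have hwu : w ∈ unitary (AOmega C ω) := by
    constructor <;>
    · rw [hw, ← map_star, ← map_mul, ← map_one (cls (A := C) ω)]
      refine congrArg _ (BoundedContinuousFunction.ext fun n => ?_)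
      first
        | exact Unitary.star_mul_self_of_mem (hWu n)
        | exact Unitary.mul_star_self_of_mem (hWu n)
  -- everything is conjugated into `A_ω`
  let Φ : C →⋆ₐ[ℂ] AOmega C ω := (conjHom (⟨w, hwu⟩ : unitary (AOmega C ω))).comp (emb ω)
  have hall : ∀ c, Φ c ∈ g.range := by
    have hcl : IsClosed ((g.range.comap Φ : StarSubalgebra ℂ C) : Set C) := by
      show IsClosed (Φ ⁻¹' (g.range : Set (AOmega C ω)))
      refine IsClosed.preimage (starHom_continuous Φ) ?_
      exact hg.isClosedEmbedding.isClosed_range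
    have hgen : Cl (Set.range ιA ∪ Set.range ιD) ≤ g.range.comap Φ := by
      refine StarSubalgebra.topologicalClosure_minimal (StarAlgebra.adjoin_le ?_) hcl
      rintro _ (⟨x, rfl⟩ | ⟨x, rfl⟩)
      · refine ⟨emb ω x, ?_⟩
        show g (emb ω x) = w * emb ω (ιA x) * star w
        rw [hgemb, ← hwA, mul_assoc, (Unitary.mem_iff.1 hwu).2, mul_one]
      · exact ⟨(ψ x).1, (hwD x).symm⟩
    intro c
    rw [hT.generates] at hgen
    exact hgen StarSubalgebra.mem_top
  refine intertwine_of G A C α₀ γ ιA hext.act hT.injective (fun g' x => hext.onA g' x)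
    fun T F Q ε hε => ?_
  have hev : ∀ᶠ n in (ω : Filter ℕ), (∀ g' ∈ T, ‖γ g' (W n) - W n‖ < ε) ∧
      (∀ x ∈ F, ‖ιA x * W n - W n * ιA x‖ < ε) ∧
      ∀ c ∈ Q, ∃ b, ‖W n * c * star (W n) - ιA b‖ < ε := by
    refine ((Filter.eventually_all_finset _).2 fun g' _ => ?_).and
      (((Filter.eventually_all_finset _).2 fun x _ => ?_).and
      ((Filter.eventually_all_finset _).2 fun c _ => ?_))
    · obtain ⟨i, rfl⟩ := he g'
      exact (hzero i (fun n => ‖γ (e i) (W n) - W n‖) (fun _ => norm_nonneg _)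
        fun n hn hXn => (hXn.2 i hn).2.2).eventually (gt_mem_nhds hε)
    · have e : cls ω (BoundedContinuousFunction.const ℕ (ιA x) * Wb)
          = cls ω (Wb * BoundedContinuousFunction.const ℕ (ιA x)) := by
        rw [map_mul, map_mul]
        exact hwA x
      exact (cls_eq_iff.1 e).eventually (gt_mem_nhds hε)
    · obtain ⟨z, hz⟩ := hall c
      obtain ⟨x, rfl⟩ := cls_surjective z
      let y : ℕ →ᵇ C := BoundedContinuousFunction.ofNormedAddCommGroup (fun k => ιA (x k))
        continuous_of_discreteTopology ‖x‖ fun k =>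
          ((NonUnitalStarAlgHom.norm_apply_le ιA (x k)).trans (x.norm_coe_le_norm k))
      have hz' : cls ω (Wb * BoundedContinuousFunction.const ℕ c * star Wb) = cls ω y := by
        rw [← hgc x y fun k => rfl, map_mul, map_mul, map_star]
        exact hz.symm
      exact ((cls_eq_iff.1 hz').eventually (gt_mem_nhds hε)).mono fun n hn => ⟨x n, hn⟩
  obtain ⟨n, hn0, hn1, hn2⟩ := hev.exists
  refine ⟨star (⟨W n, hWu n⟩ : unitary C), fun g' hg' => ?_, fun x hx => ?_, fun c hc => ?_⟩
  · show ‖γ g' (star (W n)) - star (W n)‖ ≤ ε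
    rw [map_star, ← star_sub, norm_star]
    exact (hn0 g' hg').le
  · have h1 : star (W n) * W n = 1 := Unitary.star_mul_self_of_mem (hWu n)
    have h2 : W n * star (W n) = 1 := Unitary.mul_star_self_of_mem (hWu n)
    have h3 := hn1 x hx
    show ‖star (W n) * ιA x - ιA x * star (W n)‖ ≤ ε
    rw [show star (W n) * ιA x - ιA x * star (W n)
      = star (W n) * (ιA x * W n - W n * ιA x) * star (W n) by
        rw [mul_sub, sub_mul, ← mul_assoc (star (W n)) (ιA x), mul_assoc (star (W n) * ιA x), h2,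
          mul_one, ← mul_assoc, h1, one_mul]]
    have hS := Unitary.star_mem (hWu n)
    rw [CStarRing.norm_mul_mem_unitary _ hS, CStarRing.norm_mem_unitary_mul _ hS]
    exact h3.le
  · obtain ⟨b, hb⟩ := hn2 c hc
    refine ⟨b, ?_⟩
    show ‖star (star (W n)) * c * star (W n) - ιA b‖ ≤ ε
    rw [star_star]
    exact hb.le

theorem existsExtension_of : ExistsExtensionStatement := by
  intro G _ A D _ _ ω α₀ ψ hmul hψfix
  classical
  let f : D →⋆ₐ[ℂ] AOmega A ω := (central A ω).subtype.comp ψ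
  set s : Set (AOmega A ω) := Set.range (emb (A := A) ω) ∪ Set.range f with hs
  have hA : ∀ a, emb ω a ∈ Cl s := fun a => subset_Cl s (.inl ⟨a, rfl⟩)
  have hD : ∀ d, f d ∈ Cl s := fun d => subset_Cl s (.inr ⟨d, rfl⟩)
  have hff : ∀ g d, omegaMap ω (α₀ g).toStarAlgHom (f d) = f d := fun g d =>
    (centralAct_coe ω α₀ g (ψ d)).symm.trans (congrArg Subtype.val (hψfix g d))
  have hinv : ∀ g, ∀ x ∈ Cl s, omegaMap ω (α₀ g).toStarAlgHom x ∈ Cl s := by
    intro g x hx
    have hc : IsClosed (((Cl s).comap (omegaMap ω (α₀ g).toStarAlgHom) :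
        StarSubalgebra ℂ (AOmega A ω)) : Set (AOmega A ω)) :=
      (isClosed_Cl s).preimage (starHom_continuous (omegaMap ω (α₀ g).toStarAlgHom))
    refine Cl_le hc ?_ hx
    rintro y (⟨a, rfl⟩ | ⟨d, rfl⟩)
    · show omegaMap ω (α₀ g).toStarAlgHom (emb ω a) ∈ Cl s
      rw [omegaMap_emb]
      exact hA _
    · show omegaMap ω (α₀ g).toStarAlgHom (f d) ∈ Cl s
      rw [hff]
      exact hD d
  let γ : G → Cl s →⋆ₐ[ℂ] Cl s := fun g =>
    ((omegaMap ω (α₀ g).toStarAlgHom).comp (Cl s).subtype).codRestrict (Cl s)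
      fun x => hinv g x.1 x.2
  have hone : ∀ a, α₀ 1 a = a := fun a =>
    EquivLike.injective (α₀ 1) (by rw [← hmul, mul_one])
  have hact : IsAct γ := by
    refine ⟨fun x => Subtype.ext ?_, fun g h x => Subtype.ext ?_⟩
    · show omegaMap ω (α₀ 1).toStarAlgHom x.1 = x.1
      obtain ⟨y, hy⟩ := cls_surjective x.1
      rw [← hy, omegaMap_cls]
      exact congrArg (cls ω) (BoundedContinuousFunction.ext fun k => hone _)
    · show omegaMap ω (α₀ (g * h)).toStarAlgHom x.1
        = omegaMap ω (α₀ g).toStarAlgHom (omegaMap ω (α₀ h).toStarAlgHom x.1)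
      obtain ⟨y, hy⟩ := cls_surjective x.1
      rw [← hy, omegaMap_cls, omegaMap_cls, omegaMap_cls]
      exact congrArg (cls ω) (BoundedContinuousFunction.ext fun k => hmul g h _)
  refine ⟨Cl s, inferInstance, (emb ω).codRestrict _ hA, f.codRestrict _ hD, γ,
    ⟨?_, ?_, ?_⟩, hact, ?_, ?_⟩
  · intro a b h
    have e : emb ω a = emb ω b := congrArg Subtype.val h
    have e2 := cls_eq_iff.1 (e : cls ω (BoundedContinuousFunction.const ℕ a) =
      cls ω (BoundedContinuousFunction.const ℕ b))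
    exact sub_eq_zero.1 (norm_eq_zero.1 (tendsto_nhds_unique tendsto_const_nhds e2))
  · exact fun a d => Subtype.ext (mem_central.1 (ψ d).2 a)
  · rw [← top_le_iff]
    rintro ⟨x, hx⟩ -
    let T := Cl (Set.range ((emb ω).codRestrict (Cl s) hA) ∪ Set.range (f.codRestrict (Cl s) hD))
    have hY : IsClosed ((T.map (Cl s).subtype : StarSubalgebra ℂ (AOmega A ω)) : Set (AOmega A ω)) :=
      (isClosed_Cl s).isClosedEmbedding_subtypeVal.isClosedMap _ (isClosed_Cl _)
    have hsY : s ⊆ (T.map (Cl s).subtype : StarSubalgebra ℂ (AOmega A ω)) := by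
      rintro y (⟨a, rfl⟩ | ⟨d, rfl⟩)
      · exact ⟨_, subset_Cl _ (.inl ⟨a, rfl⟩), rfl⟩
      · exact ⟨_, subset_Cl _ (.inr ⟨d, rfl⟩), rfl⟩
    obtain ⟨b, hb, hba⟩ := Cl_le hY hsY hx
    rwa [show b = ⟨x, hx⟩ from Subtype.ext hba] at hb
  · exact fun g a => Subtype.ext (omegaMap_emb ω _ a)
  · exact fun g d => Subtype.ext (hff g d)

end Vale.Agent.P095.Equiv
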