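import Vale.Agent.P095.Equiv.Core.Tuples
import Vale.Agent.P095.Equiv.Core.Select
import Vale.Agent.P101.KR.Start

/-!
# P095: finite group actions create no characters on the fixed algebra
-/

namespace Vale.Agent.P095.Equiv

open Filter Topology BoundedContinuousFunction TopologicalSpace Vale.Agent.P101.KR
open Vale.Agent.P095.Equiv.Core
open scoped CStarAlgebra

noncomputable section

theorem Core.not_character_of_data {G : Type} [Group G] [Fintype G] {F : Type} [CStarAlgebra F]
    [Nontrivial F] {β : G → F →⋆ₐ[ℂ] F} (hact : IsAct β) {B : Type} [CStarAlgebra B]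
    [SeparableSpace B] (D : Data β B) (hone : ∀ x, D.bb 1 x = x) (hB : NoCharacter B)
    (χ : fixed β →⋆ₐ[ℂ] ℂ) : False := by
  classical
  set a : ℕ → B := fun n => (realPart (denseSeq B n) : B)
  have ha : ∀ n, IsSelfAdjoint (a n) := fun n => (realPart (denseSeq B n)).2
  -- the selection
  let u : ℕ × ℕ → Finset ℕ → ℂ := fun i A =>
    if A.card = i.2 then ext0 β χ (wordSum D (a i.1) A) else 0
  have hu : ∀ i A, ‖u i A‖ ≤ Fintype.card G * ‖a i.1‖ ^ i.2 := fun i A => by
    simp only [u]
    split_ifs with h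
    · exact (norm_ext0_le χ (wordSum_mem D _ A)).trans (h ▸ norm_wordSum_le D _ A)
    · rw [norm_zero]; positivity
  choose L S hS hL using fun K : ℕ => exists_homogeneous (hyperfilter ℕ)
    hyperfilter_le_cofinite (Finset.range (K + 1) ×ˢ Finset.range (K + 1)) u _ hu Prod.snd
    (show (0 : ℝ) < 1 / ((K : ℝ) + 1) by positivity) (K + 1)
  let e : (K : ℕ) → Fin (K + 1) → ℕ := fun K k => (S K).orderEmbOfFin (hS K) k
  have he : ∀ K, Function.Injective (e K) := fun K => ((S K).orderEmbOfFin (hS K)).injective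
  have heS : ∀ K k, e K k ∈ S K := fun K k => (S K).orderEmbOfFin_mem (hS K) k
  -- the variance elements, as sequences and in the algebra of means
  let Pseq : ℕ × ℕ → ℕ →ᵇ F := fun i =>
    (∑ q : G × G, meanSeq D.κ e (D.bb q.1 (a i.1) * D.bb q.2 (a i.1)) ^ i.2)
      - (∑ g, meanSeq D.κ e (D.bb g (a i.1)) ^ i.2) * (∑ g, meanSeq D.κ e (D.bb g (a i.1)) ^ i.2)
  have hPK : ∀ i K, Pseq i K = powSum2 D (a i.1) e K i.2
      - powSum D (a i.1) e K i.2 * powSum D (a i.1) e K i.2 := fun i K => by
    simp [Pseq, powSum, powSum2, meanSeq]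
  let p : ℕ × ℕ → MeanAlg D.κ e := fun i =>
    (∑ q : G × G, toAlg (D.bb q.1 (a i.1) * D.bb q.2 (a i.1)) ^ i.2)
      - (∑ g, toAlg (D.bb g (a i.1)) ^ i.2) * (∑ g, toAlg (D.bb g (a i.1)) ^ i.2)
  have hp : ∀ i, ((p i : MeanAlg D.κ e) : AOmega F stages) = cls stages (Pseq i) := fun i => by
    simp only [p, Pseq, map_sub, map_mul, map_sum, map_pow]
    push_cast
    rfl
  let _ : CommCStarAlgebra (MeanAlg D.κ e) :=
    { (inferInstance : CStarAlgebra (MeanAlg D.κ e)) with
      mul_comm := meanAlg_comm D.comm he }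
  -- the variance elements have no common zero
  have hzero : ∀ ζ : WeakDual.characterSpace ℂ (MeanAlg D.κ e), ∃ i : ℕ × ℕ, ζ (p i) ≠ 0 := by
    intro ζ
    by_contra hc
    push Not at hc
    let z : MeanAlg D.κ e →⋆ₐ[ℂ] ℂ :=
      { WeakDual.CharacterSpace.toAlgHom ζ with map_star' := fun x => map_star ζ x }
    have hst := isState_character (κ := D.κ) (e := e) z
    set φ := z.toAlgHom.toLinearMap.comp (toAlg (κ := D.κ) (e := e))
    suffices hh : ∀ x, IsSelfAdjoint x → φ (x * x) = φ x * φ x by
      obtain ⟨ψ⟩ := hst.exists_character hh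
      exact hB.false ψ
    intro x hx
    have hvar : ∀ n, φ (a n * a n) = φ (a n) * φ (a n) := fun n => by
      have := hst.var_eq_zero (fun g => D.bb g (a n)) (fun g => (ha n).map (D.bb g))
        Finset.univ (fun r hr => ?_) 1 (Finset.mem_univ _)
      · simpa only [hone] using this
      have h0 : z (p (n, r)) = 0 := hc (n, r)
      simp only [p, map_sub, map_mul, map_sum, map_pow, sub_eq_zero] at h0
      rw [Finset.univ_product_univ]
      refine h0.trans ?_
      rw [Finset.sum_mul_sum, ← Finset.sum_product', Finset.univ_product_univ]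
      exact Finset.sum_congr rfl fun q _ => (mul_pow _ _ r).symm
    have hre : ∀ y : B, φ ((realPart y : B) * (realPart y : B))
        = φ (realPart y : B) * φ (realPart y : B) := by
      have hr : Continuous fun y : B => (realPart y : B) := by
        simp only [realPart_apply_coe]
        fun_prop
      have hcl : IsClosed {y : B | φ ((realPart y : B) * (realPart y : B))
          = φ (realPart y : B) * φ (realPart y : B)} :=
        isClosed_eq (hst.cont.comp (hr.fun_mul hr)) ((hst.cont.comp hr).fun_mul (hst.cont.comp hr))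
      exact fun y => hcl.closure_subset_iff.2 (Set.range_subset_iff.2 hvar) (denseRange_denseSeq B y)
    simpa [hx.coe_realPart] using hre x
  obtain ⟨t, ht⟩ := (isCompact_univ (X := WeakDual.characterSpace ℂ (MeanAlg D.κ e))).elim_finite_subcover
    (fun i : ℕ × ℕ => {ζ | ζ (p i) ≠ 0})
    (fun i => isOpen_ne_fun ((WeakDual.eval_continuous (p i)).comp continuous_subtype_val)
      continuous_const)
    (fun ζ _ => Set.mem_iUnion.2 (hzero ζ))
  let q : MeanAlg D.κ e := ∑ i ∈ t, star (p i) * p i
  have hq : IsUnit q := by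
    by_contra hn
    obtain ⟨ζ, hζ⟩ := WeakDual.CharacterSpace.exists_apply_eq_zero hn
    obtain ⟨i, hit, hi⟩ : ∃ i ∈ t, ζ (p i) ≠ 0 := by simpa using ht (Set.mem_univ ζ)
    have h1 : ∑ j ∈ t, ‖ζ (p j)‖ ^ 2 = 0 := by
      have h2 : ζ q = ((∑ j ∈ t, ‖ζ (p j)‖ ^ 2 : ℝ) : ℂ) := by
        simp only [q, map_sum, map_mul, map_star, Complex.ofReal_sum, Complex.ofReal_pow]
        exact Finset.sum_congr rfl fun j _ => by rw [Complex.star_def, Complex.conj_mul']
      rw [hζ] at h2
      exact_mod_cast h2.symm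
    exact hi (norm_eq_zero.1 (pow_eq_zero_iff two_ne_zero |>.1
      ((Finset.sum_eq_zero_iff_of_nonneg fun j _ => sq_nonneg _).1 h1 i hit)))
  -- but their values tend to zero
  let Sseq : ℕ →ᵇ F := ∑ i ∈ t, star (Pseq i) * Pseq i
  have hmem : ∀ i K, Pseq i K ∈ fixed β := fun i K => by
    rw [hPK]
    exact sub_mem (powSum2_mem D _ e K _) (mul_mem (powSum_mem D _ e K _) (powSum_mem D _ e K _))
  have hSK : ∀ K, Sseq K = ∑ i ∈ t, star (Pseq i K) * Pseq i K := fun K => by simp [Sseq]
  have hSmem : ∀ K, Sseq K ∈ fixed β := fun K => by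
    rw [hSK]
    exact sum_mem fun i _ => mul_mem (star_mem (hmem i K)) (hmem i K)
  have hsmall : ∀ i, Tendsto (fun K => ext0 β χ (Pseq i K)) atTop (𝓝 0) := fun i => by
    have hlim : Tendsto (fun K : ℕ => 30 * (Fintype.card G * ‖a i.1‖ ^ i.2 + 1) ^ 2 *
        (1 / ((K : ℝ) + 1) + nonInj K i.2)) atTop (𝓝 0) := by
      simpa using ((tendsto_one_div_add_atTop_nhds_zero_nat (𝕜 := ℝ)).add
        (tendsto_nonInj i.2)).const_mul _
    refine squeeze_zero_norm' ?_ hlim
    filter_upwards [eventually_ge_atTop i.1, eventually_ge_atTop i.2] with K h1 h2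
    rw [hPK]
    refine norm_ext0_var_le χ D (a i.1) e (by omega) (he K) (L K i) (by positivity) ?_ ?_
    · rw [div_le_one (by positivity)]
      linarith [(Nat.cast_nonneg K : (0 : ℝ) ≤ K)]
    intro f hf
    have hi : i ∈ Finset.range (K + 1) ×ˢ Finset.range (K + 1) :=
      Finset.mk_mem_product (Finset.mem_range.2 (by omega)) (Finset.mem_range.2 (by omega))
    have hc : (Finset.univ.image fun l => e K (f l)).card = i.2 := by
      have hinj : Function.Injective (fun l => e K (f l)) := (he K).comp hf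
      rw [Finset.card_image_of_injective _ hinj, Finset.card_univ, Fintype.card_fin]
    have := hL K i hi _ (fun x hx => by
      obtain ⟨l, -, rfl⟩ := Finset.mem_image.1 hx
      exact heS K (f l)) hc
    simp only [u, if_pos hc] at this
    exact this.le
  have hS0 : Tendsto (fun K => ext0 β χ (Sseq K)) atTop (𝓝 0) := by
    have e1 : ∀ K, ext0 β χ (Sseq K)
        = ∑ i ∈ t, starRingEnd ℂ (ext0 β χ (Pseq i K)) * ext0 β χ (Pseq i K) := fun K => by
      rw [hSK, ext0_sum χ _ fun i _ => mul_mem (star_mem (hmem i K)) (hmem i K)]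
      refine Finset.sum_congr rfl fun i _ => ?_
      rw [ext0_mul χ (star_mem (hmem i K)) (hmem i K), ext0_eq χ (star_mem (hmem i K)),
        ext0_eq χ (hmem i K), ← Complex.star_def]
      exact congrArg (· * _) (map_star χ ⟨_, hmem i K⟩)
    simp only [e1]
    simpa using tendsto_finsetSum t fun i _ =>
      ((Complex.continuous_conj.tendsto _).comp (hsmall i)).mul (hsmall i)
  -- an inverse, averaged
  obtain ⟨T, hT⟩ := hq.exists_right_inv
  obtain ⟨T', hT'⟩ := cls_surjective (ω := stages) ((T : MeanAlg D.κ e) : AOmega F stages)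
  have hone' : cls stages (Sseq * T') = cls stages 1 := by
    rw [map_mul, map_one, hT']
    have := congrArg (Subtype.val : MeanAlg D.κ e → AOmega F stages) hT
    simp only [q] at this
    push_cast at this
    simp only [StarMemClass.coe_star, hp] at this
    simpa [Sseq, map_sum, map_mul, map_star] using this
  let av : F → F := fun y => (((Fintype.card G : ℕ) : ℂ)⁻¹) • ∑ g, β g y
  have hcard : ((Fintype.card G : ℕ) : ℂ) ≠ 0 := by exact_mod_cast Fintype.card_ne_zero
  have hav : ∀ y, av y ∈ fixed β := fun y => by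
    refine SMulMemClass.smul_mem _ ?_
    rw [mem_fixed]
    intro h
    rw [map_sum]
    exact Fintype.sum_equiv (Equiv.mulLeft h) _ _ fun g => (hact.mul h g y).symm
  have havn : ∀ y, ‖av y‖ ≤ ‖y‖ := fun y => by
    rw [norm_smul, norm_inv, Complex.norm_natCast, inv_mul_le_iff₀ (by exact_mod_cast Fintype.card_pos)]
    exact (norm_sum_le _ _).trans ((Finset.sum_le_card_nsmul _ _ ‖y‖ fun g _ =>
      NonUnitalStarAlgHom.norm_apply_le _ _).trans (by simp))
  have hmul : ∀ s ∈ fixed β, ∀ y, s * av y - 1 = av (s * y - 1) := fun s hs y => by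
    simp only [av, map_sub, map_mul, map_one, Finset.sum_sub_distrib, smul_sub, Finset.sum_const,
      Finset.card_univ, mem_fixed.1 hs, ← Finset.mul_sum, mul_smul_comm]
    rw [← Nat.cast_smul_eq_nsmul ℂ, smul_smul, inv_mul_cancel₀ hcard, one_smul]
  have hlim1 : Tendsto (fun K => ext0 β χ (Sseq K) * ext0 β χ (av (T' K)) - 1)
      (stages : Filter ℕ) (𝓝 0) := by
    refine squeeze_zero_norm' (Eventually.of_forall fun K => ?_) (cls_eq_iff.1 hone')
    rw [← ext0_mul χ (hSmem K) (hav _), show (1 : ℂ) = ext0 β χ 1 by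
      rw [ext0_eq χ (one_mem _)]; exact (map_one χ).symm,
      ← ext0_sub χ (mul_mem (hSmem K) (hav _)) (one_mem _), hmul _ (hSmem K)]
    exact (norm_ext0_le χ (hav _)).trans (havn _)
  have hlim0 : Tendsto (fun K => ext0 β χ (Sseq K) * ext0 β χ (av (T' K)))
      (stages : Filter ℕ) (𝓝 0) := by
    refine squeeze_zero_norm' (Eventually.of_forall fun K => ?_)
      (by simpa using ((hS0.mono_left stages_le).norm.mul_const ‖T'‖))
    rw [norm_mul]
    exact mul_le_mul_of_nonneg_left
      ((norm_ext0_le χ (hav _)).trans ((havn _).trans (T'.norm_coe_le_norm K))) (norm_nonneg _)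
  have := tendsto_nhds_unique hlim1 (hlim0.sub_const 1)
  norm_num at this

/-- The core statement. -/
theorem core_of : CoreStatement := by
  intro G _ _ F _ β hact hcop hF
  refine ⟨fun χ => ?_⟩
  have : Nontrivial F := nontrivial_of_ne 1 0 fun h => by
    have h1 : (1 : fixed β) = 0 := Subtype.ext h
    simpa using congrArg χ h1
  obtain ⟨s₀, hs₀, N, x, -, hfull⟩ := start_of F hF
  set s : Set F := ⋃ g, β g '' s₀
  have hs : s.Countable := Set.countable_iUnion fun g => hs₀.image _
  have hsub : s₀ ⊆ s := fun y hy => Set.mem_iUnion.2 ⟨1, y, hy, hact.one y⟩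
  have hmaps : ∀ g, Set.MapsTo (β g) s s := fun g y hy => by
    obtain ⟨h, z, hz, rfl⟩ := Set.mem_iUnion.1 hy
    exact Set.mem_iUnion.2 ⟨g * h, z, hz, hact.mul g h z⟩
  obtain ⟨κ, hκ, hκe⟩ := hcop s hs hmaps
  have hbb : ∀ g (y : Cl s), β g y ∈ Cl s := fun g y => by
    have hle : Cl s ≤ (Cl s).comap (β g) := by
      refine StarSubalgebra.topologicalClosure_minimal (StarAlgebra.adjoin_le fun z hz =>
        StarSubalgebra.le_topologicalClosure _ (StarAlgebra.subset_adjoin ℂ s (hmaps g hz))) ?_
      exact (isClosed_Cl s).preimage (AddMonoidHomClass.continuous_of_bound (β g) 1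
        fun w => by simpa using NonUnitalStarAlgHom.norm_apply_le (β g) w)
    exact hle y.2
  let bb : G → Cl s →⋆ₐ[ℂ] Cl s := fun g =>
    ((β g).comp (Cl s).subtype).codRestrict (Cl s) (hbb g)
  let D : Data β (Cl s) :=
    { bb := bb
      bb_mul := fun g h y => Subtype.ext (hact.mul g h y)
      κ := κ
      comm := hκ
      equiv := fun i g y => hκe i g y (bb g y) rfl }
  have hsep : SeparableSpace (Cl s) := by
    refine TopologicalSpace.IsSeparable.separableSpace ?_
    simpa [Cl, StarSubalgebra.topologicalClosure_coe] using (isSeparable_adjoin hs).closure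
  refine not_character_of_data hact D (fun y => Subtype.ext (hact.one y)) ⟨fun ψ => ?_⟩ χ
  have hle : Cl s₀ ≤ Cl s :=
    StarSubalgebra.topologicalClosure_mono (StarAlgebra.adjoin_le
      (hsub.trans (StarAlgebra.subset_adjoin ℂ s)))
  let ψ' := ψ.comp (StarSubalgebra.inclusion hle)
  have h1 : (1 : Cl s₀) ∈ TwoSidedIdeal.ker ψ' := by
    refine TwoSidedIdeal.span_le.2 ?_ hfull
    simp only [Set.iUnion_subset_iff, Set.singleton_subset_iff, SetLike.mem_coe,
      TwoSidedIdeal.mem_ker, map_sub, map_mul, mul_comm, sub_self, implies_true]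
  rw [TwoSidedIdeal.mem_ker, map_one] at h1
  exact one_ne_zero h1

end

end Vale.Agent.P095.Equiv
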