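import Vale.Agent.P101.Bridge.Interfaces

/-!
# P095: actions on central sequence algebras, and the interfaces
-/

namespace Vale.Agent.P095.Equiv

open Vale.Agent.P101.KR Vale.Agent.P101.Bridge

/-- A family of endomorphisms composing as a group action. -/
structure IsAct {G : Type} [Group G] {F : Type} [CStarAlgebra F] (β : G → F →⋆ₐ[ℂ] F) : Prop where
  one : ∀ x, β 1 x = x
  mul : ∀ g h x, β (g * h) x = β g (β h x)

/-- The fixed algebra. -/
def fixed {G : Type} {F : Type} [CStarAlgebra F] (β : G → F →⋆ₐ[ℂ] F) :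
    StarSubalgebra ℂ F :=
  ⨅ g, StarAlgHom.equalizer (β g) (StarAlgHom.id ℂ F)

/-- Every invariant separably generated unital subalgebra has infinitely many commuting copies,
compatible with the action. -/
def HasEquivCopies {G : Type} [Group G] {F : Type} [CStarAlgebra F] (β : G → F →⋆ₐ[ℂ] F) : Prop :=
  ∀ s : Set F, s.Countable → (∀ g, Set.MapsTo (β g) s s) →
    ∃ κ : ℕ → (Cl s →⋆ₐ[ℂ] F),
      (∀ i j, i ≠ j → ∀ a b, Commute (κ i a) (κ j b)) ∧
      ∀ i g (x y : Cl s), β g x = y → β g (κ i x) = κ i y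

/-- The core: finite groups create no characters on the fixed algebra. -/
def CoreStatement : Prop :=
  ∀ (G : Type) [Group G] [Fintype G] (F : Type) [CStarAlgebra F] (β : G → F →⋆ₐ[ℂ] F),
    IsAct β → HasEquivCopies β → NoCharacter F → IsEmpty (fixed β →⋆ₐ[ℂ] ℂ)

/-- Locally finite: every finite set is in a finite subgroup. -/
def LocallyFinite (G : Type) [Group G] : Prop :=
  ∀ T : Finset G, ∃ H : Subgroup G, (H : Set G).Finite ∧ ↑T ⊆ (H : Set G)

/-- The extension of an action to commuting copies of `A` and `D`, trivial on `D`. -/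
structure IsExtension {G A D C : Type} [Group G] [CStarAlgebra A] [CStarAlgebra D] [CStarAlgebra C]
    (α : G → A ≃⋆ₐ[ℂ] A) (ιA : A →⋆ₐ[ℂ] C) (ιD : D →⋆ₐ[ℂ] C) (γ : G → C →⋆ₐ[ℂ] C) : Prop where
  act : IsAct γ
  onA : ∀ g a, γ g (ιA a) = ιA (α g a)
  onD : ∀ g d, γ g (ιD d) = ιD d

/-- Cocycle conjugacy of `α` and `γ`. -/
def CocycleConjugate {G A C : Type} [Group G] [CStarAlgebra A] [CStarAlgebra C]
    (α : G → A ≃⋆ₐ[ℂ] A) (γ : G → C →⋆ₐ[ℂ] C) : Prop :=
  ∃ (Φ : A ≃⋆ₐ[ℂ] C) (u : G → C),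
    (∀ g, star (u g) * u g = 1 ∧ u g * star (u g) = 1) ∧
    (∀ g h, u (g * h) = u g * γ g (u h)) ∧
    ∀ g a, Φ (α g a) = u g * γ g (Φ a) * star (u g)

/-- Equivariant intertwining. -/
def IntertwineStatement : Prop :=
  ∀ (G : Type) [Group G] [Countable G] (A C : Type) [CStarAlgebra A] [CStarAlgebra C]
    [TopologicalSpace.SeparableSpace A] [TopologicalSpace.SeparableSpace C]
    (α : G → A ≃⋆ₐ[ℂ] A) (γ : G → C →⋆ₐ[ℂ] C) (φ : A →⋆ₐ[ℂ] C), IsAct γ →
    Function.Injective φ → (∀ g a, γ g (φ a) = φ (α g a)) →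
    (∀ (T : Finset G) (P : Finset A) (Q : Finset C) (ε : ℝ), 0 < ε → ∃ z : unitary C,
      (∀ g ∈ T, ‖γ g (z : C) - z‖ ≤ ε) ∧
      (∀ a ∈ P, ‖(z : C) * φ a - φ a * z‖ ≤ ε) ∧
      ∀ c ∈ Q, ∃ a, ‖star (z : C) * c * z - φ a‖ ≤ ε) →
    CocycleConjugate α γ

end Vale.Agent.P095.Equiv
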