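import Vale.Agent.P095.Equiv.Defs

/-!
# P095: the induced actions on `A_ω` and `F_ω(A)`
-/

namespace Vale.Agent.P095.Equiv

open Filter Topology BoundedContinuousFunction Vale.Agent.P101.KR Vale.Agent.P101.Bridge

noncomputable section

variable {A C : Type} [CStarAlgebra A] [CStarAlgebra C]

/-- A map applied coordinatewise to bounded sequences. -/
def seqMap (f : A →⋆ₐ[ℂ] C) : (ℕ →ᵇ A) →⋆ₐ[ℂ] (ℕ →ᵇ C) where
  toFun x := BoundedContinuousFunction.ofNormedAddCommGroup (fun k => f (x k))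
    continuous_of_discreteTopology ‖x‖
    fun k => (NonUnitalStarAlgHom.norm_apply_le f (x k)).trans (x.norm_coe_le_norm k)
  map_one' := by ext k; exact map_one f
  map_zero' := by ext k; exact map_zero f
  map_mul' _ _ := by ext k; exact map_mul f _ _
  map_add' _ _ := by ext k; exact map_add f _ _
  commutes' r := by ext k; exact AlgHomClass.commutes f r
  map_star' _ := by ext k; exact map_star f _

theorem seqMap_apply (f : A →⋆ₐ[ℂ] C) (x : ℕ →ᵇ A) (k : ℕ) : seqMap f x k = f (x k) := rfl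

variable (ω : Ultrafilter ℕ)

theorem cls_seqMap_congr (f : A →⋆ₐ[ℂ] C) {x y : ℕ →ᵇ A} (h : cls ω x = cls ω y) :
    cls ω (seqMap f x) = cls ω (seqMap f y) := by
  rw [cls_eq_iff] at h ⊢
  refine squeeze_zero' (Eventually.of_forall fun _ => norm_nonneg _)
    (Eventually.of_forall fun k => ?_) h
  rw [seqMap_apply, seqMap_apply, ← map_sub]
  exact NonUnitalStarAlgHom.norm_apply_le f _

/-- The map of ultrapowers induced by `f`. -/
def omegaMap (f : A →⋆ₐ[ℂ] C) : AOmega A ω →⋆ₐ[ℂ] AOmega C ω :=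
  have hrep : ∀ z : AOmega A ω, cls ω (Function.surjInv cls_surjective z) = z :=
    Function.surjInv_eq cls_surjective
  have hwd : ∀ x : ℕ →ᵇ A,
      cls ω (seqMap f (Function.surjInv cls_surjective (cls ω x))) = cls ω (seqMap f x) :=
    fun x => cls_seqMap_congr ω f (hrep _)
  { toFun := fun z => cls ω (seqMap f (Function.surjInv cls_surjective z))
    map_one' := by rw [← map_one (cls (A := A) ω), hwd, map_one, map_one]
    map_zero' := by rw [← map_zero (cls (A := A) ω), hwd, map_zero, map_zero]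
    map_mul' := fun z w => by
      conv_lhs => rw [← hrep z, ← hrep w, ← map_mul]
      rw [hwd, map_mul, map_mul]
    map_add' := fun z w => by
      conv_lhs => rw [← hrep z, ← hrep w, ← map_add]
      rw [hwd, map_add, map_add]
    commutes' := fun r => by
      rw [← AlgHomClass.commutes (cls (A := A) ω) r, hwd, AlgHomClass.commutes,
        AlgHomClass.commutes]
    map_star' := fun z => by
      conv_lhs => rw [← hrep z, ← map_star]
      rw [hwd, map_star, map_star] }

theorem omegaMap_cls (f : A →⋆ₐ[ℂ] C) (x : ℕ →ᵇ A) :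
    omegaMap ω f (cls ω x) = cls ω (seqMap f x) :=
  cls_seqMap_congr ω f (Function.surjInv_eq cls_surjective _)

theorem omegaMap_emb (f : A →⋆ₐ[ℂ] C) (a : A) : omegaMap ω f (emb ω a) = emb ω (f a) :=
  omegaMap_cls ω f _

theorem omegaMap_central (e : A ≃⋆ₐ[ℂ] A) (z : CentralAlgebra ω A) :
    omegaMap ω e.toStarAlgHom z.1 ∈ central A ω := by
  refine mem_central.2 fun a => ?_
  have h := congrArg (omegaMap ω e.toStarAlgHom) (mem_central.1 z.2 (e.symm a))
  rwa [map_mul, map_mul, omegaMap_emb,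
    show e.toStarAlgHom (e.symm a) = a from e.apply_symm_apply a] at h

variable {G : Type}

/-- The action on `F_ω(A)`. -/
def centralAct (α : G → A ≃⋆ₐ[ℂ] A) (g : G) : CentralAlgebra ω A →⋆ₐ[ℂ] CentralAlgebra ω A :=
  StarAlgHom.codRestrict ((omegaMap ω (α g).toStarAlgHom).comp (central A ω).subtype)
    (central A ω) fun z => omegaMap_central ω (α g) z

theorem centralAct_coe (α : G → A ≃⋆ₐ[ℂ] A) (g : G) (z : CentralAlgebra ω A) :
    (centralAct ω α g z : AOmega A ω) = omegaMap ω (α g).toStarAlgHom z.1 := rfl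

end

/-- A fixed central map from `D`, for every locally finite group action. -/
def FixedMapStatement : Prop :=
  ∀ (G : Type) [Group G] [Countable G], LocallyFinite G →
    ∀ (A : Type) [CStarAlgebra A] [TopologicalSpace.SeparableSpace A] (ω : Ultrafilter ℕ),
      (ω : Filter ℕ) ≤ Filter.cofinite → NoCharacter (CentralAlgebra ω A) →
      ∀ (α : G → A ≃⋆ₐ[ℂ] A), (∀ g h a, α (g * h) a = α g (α h a)) →
      ∀ (D : Type) [CStarAlgebra D], IsJiangSu D →
        ∃ ψ : D →⋆ₐ[ℂ] CentralAlgebra ω A, ∀ g d, centralAct ω α g (ψ d) = ψ d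

/-- A fixed central map gives cocycle conjugacy with the extension by the identity. -/
def AbsorbStatement : Prop :=
  ∀ (G : Type) [Group G] [Countable G] (A D C : Type) [CStarAlgebra A] [CStarAlgebra D]
    [CStarAlgebra C] [TopologicalSpace.SeparableSpace A] [TopologicalSpace.SeparableSpace D]
    (ω : Ultrafilter ℕ), (ω : Filter ℕ) ≤ Filter.cofinite → HasHalfFlip D →
    ∀ (α : G → A ≃⋆ₐ[ℂ] A) (ψ : D →⋆ₐ[ℂ] CentralAlgebra ω A),
      (∀ g d, centralAct ω α g (ψ d) = ψ d) →
      ∀ (ιA : A →⋆ₐ[ℂ] C) (ιD : D →⋆ₐ[ℂ] C) (γ : G → C →⋆ₐ[ℂ] C),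
        IsTensorCompletion ιA ιD → IsExtension α ιA ιD γ → CocycleConjugate α γ

/-- A fixed central map gives commuting copies with such an extension. -/
def ExistsExtensionStatement : Prop :=
  ∀ (G : Type) [Group G] (A D : Type) [CStarAlgebra A] [CStarAlgebra D] (ω : Ultrafilter ℕ)
    (α : G → A ≃⋆ₐ[ℂ] A) (ψ : D →⋆ₐ[ℂ] CentralAlgebra ω A),
    (∀ g h a, α (g * h) a = α g (α h a)) → (∀ g d, centralAct ω α g (ψ d) = ψ d) →
    ∃ (C : Type) (_ : CStarAlgebra C) (ιA : A →⋆ₐ[ℂ] C) (ιD : D →⋆ₐ[ℂ] C)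
      (γ : G → C →⋆ₐ[ℂ] C), IsTensorCompletion ιA ιD ∧ IsExtension α ιA ιD γ

end Vale.Agent.P095.Equiv
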